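import Vale.Agent.P150.LowTemp
import Vale.Agent.P150.Gap.Goe

/-!
Up to the critical temperature the partition function is, with high probability, at least
`exp (-o(n))` times its mean: second moment below criticality, convexity at criticality.
-/

open MeasureTheory ProbabilityTheory Filter Real
open scoped Topology

namespace Vale.Agent.P150.Crit

variable {n : ℕ}

/-- The partition function. -/
noncomputable def part (β : ℝ) (g : Edge n → ℝ) : ℝ := ∑ x, exp (β * energy g x)

lemma part_eq_exp_lse (β : ℝ) (g : Edge n → ℝ) :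
    part β g = exp (lse (wsum (pairCoef n (β / √n)) g)) := by
  simp only [exp_lse, wsum_pairCoef, part]

lemma exp_energy_eq (β : ℝ) (g : Edge n → ℝ) (x : Conf n) :
    exp (β * energy g x) = exp (∑ e, g e * (β / √n * pairSpin x e)) := by
  rw [← wsum_pairCoef]; rfl

lemma integral_part (r : ℝ) :
    ∫ g, part r g ∂gauss (Edge n) =
      (2:ℝ) ^ n * exp (r ^ 2 * (Fintype.card (Edge n) : ℝ) / (2 * n)) := by
  simp only [part, exp_energy_eq]
  rw [integral_finsetSum _ fun x _ => integrable_gauss_exp _]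
  simp only [gauss_mgf, mul_pow, pairSpin_sq, mul_one, div_pow, sq_sqrt (Nat.cast_nonneg _),
    Finset.sum_const, Finset.card_univ, nsmul_eq_mul]
  rw [Fintype.card_pi, Finset.prod_const, Finset.card_univ, Fintype.card_fin, Fintype.card_bool]
  push_cast
  congr 2
  ring

lemma sum_exp_overlap (b : ℝ) (x : Conf n) :
    ∑ y : Conf n, exp (b * ∑ i, spin x i * spin y i) ≤ (2:ℝ) ^ n * exp (n * (b ^ 2 / 2)) := by
  have e : ∀ y : Conf n, exp (b * ∑ i, spin x i * spin y i) =
      ∏ i, exp (b * (spin x i * if y i then 1 else -1)) := fun y => by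
    rw [Finset.mul_sum, exp_sum]; rfl
  simp only [e]
  rw [← Fintype.prod_sum (fun i (s : Bool) => exp (b * (spin x i * if s then 1 else -1))),
    show (2:ℝ) ^ n * exp (n * (b ^ 2 / 2)) = ∏ _i : Fin n, 2 * exp (b ^ 2 / 2) by
      simp [Finset.prod_const, mul_pow, ← exp_nat_mul]]
  refine Finset.prod_le_prod (fun i _ => Finset.sum_nonneg fun s _ => (exp_pos _).le) fun i _ => ?_
  have hc := cosh_le_exp_half_sq (b * spin x i)
  have hs : (b * spin x i) ^ 2 = b ^ 2 := by unfold spin; split_ifs <;> ring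
  rw [hs, cosh_eq] at hc
  rw [Fintype.sum_bool]
  simp only [if_true, Bool.false_eq_true, if_false, mul_one, mul_neg]
  linarith

lemma sum_exp_overlap_sq {r : ℝ} (hr : r ^ 2 < 1) (hn : 0 < n) (x : Conf n) :
    ∑ y : Conf n, exp (r ^ 2 / (2 * n) * (∑ i, spin x i * spin y i) ^ 2) ≤
      (2:ℝ) ^ n * (√(1 - r ^ 2))⁻¹ := by
  have hn' : (0:ℝ) < n := Nat.cast_pos.2 hn
  have hlin : ∀ S : ℝ, exp (r ^ 2 / (2 * n) * S ^ 2) =
      ∫ t, exp (r / √n * S * t) ∂gaussianReal 0 1 := by
    intro S
    have h := congrFun (mgf_id_gaussianReal (μ := 0) (v := 1)) (r / √n * S)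
    simp [mgf] at h
    rw [h]
    congr 1
    rw [mul_pow, div_pow, sq_sqrt hn'.le]
    field_simp
  simp only [hlin]
  rw [← integral_finsetSum _ fun y _ => integrable_exp_mul_gaussianReal _]
  have hr2 : r ^ 2 / 2 < 1 / 2 := by linarith
  calc ∫ t, ∑ y : Conf n, exp (r / √n * (∑ i, spin x i * spin y i) * t) ∂gaussianReal 0 1
      ≤ ∫ t, (2:ℝ) ^ n * exp (r ^ 2 / 2 * t ^ 2) ∂gaussianReal 0 1 := by
        refine integral_mono (integrable_finsetSum _ fun y _ => integrable_exp_mul_gaussianReal _)
          ((Gap.integrable_exp_sq hr2).const_mul _) fun t => ?_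
        have h := sum_exp_overlap (r / √n * t) x
        refine le_trans (le_of_eq (Finset.sum_congr rfl fun y _ => by congr 1; ring)) (h.trans_eq ?_)
        rw [mul_pow, div_pow, sq_sqrt hn'.le]
        congr 2
        field_simp
    _ = _ := by
        rw [integral_const_mul, Gap.integral_exp_sq hr2]
        congr 4
        ring

lemma part_sq (r : ℝ) (g : Edge n → ℝ) :
    part r g ^ 2 = ∑ x : Conf n, ∑ y : Conf n,
      exp (∑ e, g e * (r / √n * (pairSpin x e + pairSpin y e))) := by
  simp only [part, sq, Finset.sum_mul_sum, exp_energy_eq, ← exp_add, ← Finset.sum_add_distrib,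
    mul_add]

lemma integrable_part_sq (r : ℝ) : Integrable (fun g => part r g ^ 2) (gauss (Edge n)) := by
  simp only [part_sq]
  exact integrable_finsetSum _ fun x _ => integrable_finsetSum _ fun y _ => integrable_gauss_exp _

/-- The second moment below criticality. -/
lemma integral_part_sq_le {r : ℝ} (hr : r ^ 2 < 1) (hn : 0 < n) :
    ∫ g, part r g ^ 2 ∂gauss (Edge n) ≤
      (∫ g, part r g ∂gauss (Edge n)) ^ 2 * (√(1 - r ^ 2))⁻¹ := by
  have hn' : (0:ℝ) < n := Nat.cast_pos.2 hn
  rw [integral_part]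
  set N := (Fintype.card (Edge n) : ℝ)
  simp only [part_sq]
  rw [integral_finsetSum _ fun x _ => integrable_finsetSum _ fun y _ => integrable_gauss_exp _]
  simp only [integral_finsetSum _ fun (y : Conf n) _ => integrable_gauss_exp
    (fun e => r / √n * (pairSpin _ e + pairSpin y e)), gauss_mgf]
  have hxy : ∀ x y : Conf n, exp ((∑ e, (r / √n * (pairSpin x e + pairSpin y e)) ^ 2) / 2) ≤
      exp (r ^ 2 * N / n) * exp (r ^ 2 / (2 * n) * (∑ i, spin x i * spin y i) ^ 2) := by
    intro x y
    have e : ∀ e : Edge n, (r / √n * (pairSpin x e + pairSpin y e)) ^ 2 =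
        r ^ 2 / n * (2 + 2 * (pairSpin x e * pairSpin y e)) := fun e => by
      rw [mul_pow, div_pow, sq_sqrt hn'.le]
      linear_combination (r ^ 2 / n) * pairSpin_sq x e + (r ^ 2 / n) * pairSpin_sq y e
    rw [← exp_add, exp_le_exp]
    simp only [e, ← Finset.mul_sum, Finset.sum_add_distrib, sum_pair_mul, Finset.sum_const,
      Finset.card_univ, nsmul_eq_mul]
    have : 0 ≤ r ^ 2 / 2 := by positivity
    refine le_of_eq_of_le (b := r ^ 2 * N / n +
      r ^ 2 / (2 * n) * (∑ i, spin x i * spin y i) ^ 2 - r ^ 2 / 2) ?_ (by linarith)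
    simp only [N]
    field_simp
    ring
  refine (Finset.sum_le_sum fun x _ => Finset.sum_le_sum fun y _ => hxy x y).trans ?_
  simp only [← Finset.mul_sum]
  refine (mul_le_mul_of_nonneg_left
    (Finset.sum_le_sum fun x _ => sum_exp_overlap_sq hr hn x) (exp_pos _).le).trans_eq ?_
  rw [Finset.sum_const, Finset.card_univ, Fintype.card_pi, Finset.prod_const, Finset.card_univ,
    Fintype.card_fin, Fintype.card_bool, nsmul_eq_mul, mul_pow, ← exp_nat_mul]
  push_cast
  rw [show 2 * (r ^ 2 * N / (2 * n)) = r ^ 2 * N / n by field_simp]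
  ring

/-- The mean free energy below criticality is the annealed one, up to `O(√n)`. -/
lemma free_ge {r : ℝ} (hr0 : 0 ≤ r) (hr : r < 1) (hn : 0 < n) :
    n * log 2 + r ^ 2 * (Fintype.card (Edge n) : ℝ) / (2 * n) - log 2 -
      8 * (√(1 - r ^ 2))⁻¹ * √n ≤ free n (r / √n) := by
  have hr2 : r ^ 2 < 1 := by nlinarith
  set A := (√(1 - r ^ 2))⁻¹ with hA
  set m := (2:ℝ) ^ n * exp (r ^ 2 * (Fintype.card (Edge n) : ℝ) / (2 * n)) with hm
  set P := gauss (Edge n)
  have hA0 : 0 < A := inv_pos.2 (sqrt_pos.2 (by linarith))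
  have hm0 : 0 < m := by positivity
  have hpc : Continuous fun g : Edge n → ℝ => part r g := by unfold part; fun_prop
  have hpi : Integrable (fun g => part r g) P := by
    simp only [part, exp_energy_eq]
    exact integrable_finsetSum _ fun x _ => integrable_gauss_exp _
  set s := {g : Edge n → ℝ | m / 2 ≤ part r g}
  have hs : MeasurableSet s := measurableSet_le measurable_const hpc.measurable
  have hPZ : 1 / (4 * A) ≤ P.real s := by
    have h2 := integral_part_sq_le hr2 hn
    rw [integral_part, ← hm, ← hA] at h2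
    have hb : ∀ g, part r g ≤ m / 2 +
        (part r g ^ 2 / (2 * (2 * A * m)) + s.indicator (fun _ => A * m) g) := by
      intro g
      have h0 : 0 ≤ part r g ^ 2 / (2 * (2 * A * m)) := by positivity
      by_cases hg : g ∈ s
      · rw [Set.indicator_of_mem hg]
        have : part r g ≤ part r g ^ 2 / (2 * (2 * A * m)) + A * m := by
          rw [div_add' _ _ _ (by positivity), le_div_iff₀ (by positivity)]
          nlinarith [sq_nonneg (part r g - 2 * A * m)]
        linarith
      · rw [Set.indicator_of_notMem hg]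
        simp only [s, Set.mem_ofPred_eq, not_le] at hg
        linarith
    have i2 : Integrable (fun g => part r g ^ 2 / (2 * (2 * A * m))) P :=
      (integrable_part_sq r).div_const _
    have i3 : Integrable (s.indicator fun _ => A * m) P :=
      (integrable_const _).indicator hs
    have i4 : Integrable (fun g => part r g ^ 2 / (2 * (2 * A * m)) +
        s.indicator (fun _ => A * m) g) P := i2.add i3
    have h := integral_mono hpi ((integrable_const (m / 2)).add i4) hb
    rw [integral_add' (integrable_const _) i4, integral_add i2 i3, integral_div,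
      integral_indicator_const _ hs, integral_part, ← hm] at h
    simp only [integral_const, probReal_univ, smul_eq_mul, integral_div] at h
    have h3 : (∫ g, part r g ^ 2 ∂P) / (2 * (2 * A * m)) ≤ m / 4 := by
      rw [div_le_iff₀ (by positivity)]; nlinarith
    rw [div_le_iff₀ (by positivity)]
    nlinarith
  set M := 8 * A * √n with hM
  have hM0 : 0 < M := by positivity
  have hdev : P.real {g | M ≤ lseDev n r g} ≤ 1 / (8 * A) := by
    have h := mul_meas_ge_le_integral_of_nonneg (μ := P)
      (ae_of_all _ fun g => lseDev_nonneg n r g) (integrable_lseDev n r) M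
    have h2 := integral_lseDev_le n r
    rw [disorder_eq] at h2
    have h3 : M * P.real {g | M ≤ lseDev n r g} ≤ 1 * √n := by
      refine h.trans (h2.trans (mul_le_mul_of_nonneg_right ?_ (sqrt_nonneg _)))
      rw [abs_of_nonneg hr0]; exact hr.le
    rw [le_div_iff₀ (by positivity)]
    have hsn : 0 < √(n:ℝ) := sqrt_pos.2 (Nat.cast_pos.2 hn)
    rw [hM] at h3 ⊢
    nlinarith
  obtain ⟨g, hg, hg'⟩ : ∃ g, g ∈ s ∧ ¬ M ≤ lseDev n r g := by
    by_contra h
    push Not at h
    have hle : P.real s ≤ P.real {g | M ≤ lseDev n r g} := measureReal_mono fun g hg => h g hg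
    have : 1 / (8 * A) < 1 / (4 * A) := by gcongr; norm_num
    linarith
  have h1 : log (m / 2) ≤ lse (wsum (pairCoef n (r / √n)) g) := by
    rw [← log_exp (lse _), ← part_eq_exp_lse]
    exact log_le_log (by positivity) hg
  have h2 : lse (wsum (pairCoef n (r / √n)) g) ≤ free n (r / √n) + M := by
    have := (le_abs_self _).trans (le_of_lt (not_le.1 hg'))
    linarith
  rw [log_div hm0.ne' two_ne_zero, hm, log_mul (by positivity) (exp_pos _).ne', log_pow, log_exp]
    at h1
  linarith

lemma en_nonneg (hn : 0 < n) {r : ℝ} (hr : 0 ≤ r) : 0 ≤ en n r := by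
  have hn' : (0:ℝ) < n := Nat.cast_pos.2 hn
  rw [en_eq hn]
  refine mul_nonneg hr (sub_nonneg.2 ?_)
  have hc : ∀ g : Edge n → ℝ, corr r g ≤ ((n:ℝ) - 1) / (2 * n) := fun g => by
    rw [corr, div_le_iff₀ (by positivity)]
    calc ∑ e, avg r g (fun x => pairSpin x e) ^ 2 ≤ ∑ _e : Edge n, (1:ℝ) :=
          Finset.sum_le_sum fun e _ => (sq_le_one_iff_abs_le_one _).2 (abs_avg_pair_le r g e)
      _ = (Fintype.card (Edge n) : ℝ) := by simp
      _ = _ := by
          rw [show (Fintype.card (Edge n) : ℝ) = (n:ℝ) * ((n:ℝ) - 1) / 2 by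
            linarith [card_edge_mul_two n]]
          field_simp
  calc ∫ g, corr r g ∂disorder n ≤ ∫ _g, ((n:ℝ) - 1) / (2 * n) ∂disorder n :=
        integral_mono (integrable_of_bound (continuous_corr r) fun g => by
          rw [abs_of_nonneg (corr_nonneg r g)]; exact corr_le_one r g) (integrable_const _) hc
    _ = _ := by simp

/-- With high probability `log Z ≥ log E Z - δ n`, for every `β ≤ 1`. -/
theorem tendsto_lse_low {β : ℝ} (h0 : 0 < β) (h1 : β ≤ 1) {δ : ℝ} (hδ : 0 < δ) :
    Tendsto (fun n => (disorder n).real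
      {g | lse (wsum (pairCoef n (β / √n)) g) < n * (log 2 + β ^ 2 / 4 - δ)}) atTop (𝓝 0) := by
  set d := min δ (1 / 2) with hd
  have hd0 : 0 < d := lt_min hδ (by norm_num)
  have hd1 : d ≤ 1 / 2 := min_le_right _ _
  set r := β * (1 - d) with hr
  have hr0 : 0 ≤ r := mul_nonneg h0.le (by linarith)
  have hr1 : r < 1 := by rw [hr]; nlinarith
  have hrb : r ≤ β := by rw [hr]; nlinarith
  set A := (√(1 - r ^ 2))⁻¹
  have hs : Tendsto (fun n : ℕ => √(n:ℝ)) atTop atTop :=
    tendsto_sqrt_atTop.comp tendsto_natCast_atTop_atTop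
  have hlim : Tendsto (fun n : ℕ => (4 / δ) * (√(n:ℝ))⁻¹) atTop (𝓝 0) := by
    simpa using hs.inv_tendsto_atTop.const_mul (4 / δ)
  refine squeeze_zero' (Eventually.of_forall fun n => measureReal_nonneg) ?_ hlim
  filter_upwards [hs.eventually_ge_atTop ((1 + 8 * A) * (4 / δ)), eventually_gt_atTop 0] with n hn hn0
  have hn' : (0:ℝ) < n := Nat.cast_pos.2 hn0
  have hsn : 0 < √(n:ℝ) := sqrt_pos.2 hn'
  have hfree : n * (log 2 + β ^ 2 / 4 - δ) + n * δ / 4 ≤ free n (β / √n) := by
    have h2 := free_ge (n := n) hr0 hr1 hn0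
    have h3 := fe_tangent (n := n) r β
    have h4 := mul_nonneg (sub_nonneg.2 hrb) (en_nonneg hn0 hr0)
    have h5 : free n (r / √n) ≤ free n (β / √n) := by
      rw [fe_eq hn0, fe_eq hn0]
      exact mul_le_mul_of_nonneg_left (by linarith) hn'.le
    have h6 : r ^ 2 * (Fintype.card (Edge n) : ℝ) / (2 * n) = r ^ 2 * ((n:ℝ) - 1) / 4 := by
      rw [show (Fintype.card (Edge n) : ℝ) = (n:ℝ) * ((n:ℝ) - 1) / 2 by
        linarith [card_edge_mul_two n]]
      field_simp
      ring
    have h7 : β ^ 2 / 4 - δ / 2 ≤ r ^ 2 / 4 := by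
      have e : r ^ 2 = β ^ 2 * (1 - d) ^ 2 := by rw [hr]; ring
      have hb : β ^ 2 ≤ 1 := pow_le_one₀ h0.le h1
      nlinarith [min_le_left δ (1 / 2 : ℝ), mul_le_mul_of_nonneg_right hb hd0.le, sq_nonneg (β * d)]
    have h8 : 8 * A * √n + log 2 + r ^ 2 / 4 ≤ n * δ / 4 := by
      have hss : √(n:ℝ) * √n = n := mul_self_sqrt hn'.le
      have h9 : (1 + 8 * A) * √n ≤ n * δ / 4 := by
        have := mul_le_mul_of_nonneg_right hn hsn.le
        rw [hss] at this
        field_simp at this ⊢
        linarith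
      have h10 : log 2 + r ^ 2 / 4 ≤ 1 := by
        have := log_two_lt_d9
        nlinarith
      have h11 : (1:ℝ) ≤ √n := one_le_sqrt.2 (by exact_mod_cast hn0)
      nlinarith
    rw [h6] at h2
    nlinarith [mul_le_mul_of_nonneg_left h7 hn'.le]
  have hsub : {g : Edge n → ℝ | lse (wsum (pairCoef n (β / √n)) g) < n * (log 2 + β ^ 2 / 4 - δ)} ⊆
      {g | n * δ / 4 ≤ lseDev n β g} := by
    intro g hg
    simp only [Set.mem_ofPred_eq] at hg ⊢
    refine le_trans ?_ ((neg_le_abs _).trans le_rfl)
    linarith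
  refine (measureReal_mono hsub).trans ?_
  have h := mul_meas_ge_le_integral_of_nonneg (μ := disorder n)
    (ae_of_all _ fun g => lseDev_nonneg n β g) (integrable_lseDev n β) (n * δ / 4)
  have h2 := (h.trans (integral_lseDev_le n β)).trans
    (mul_le_mul_of_nonneg_right (b := |β|) (c := 1) (by rw [abs_of_pos h0]; exact h1) hsn.le)
  rw [one_mul, mul_comm, ← le_div_iff₀ (by positivity)] at h2
  refine h2.trans_eq ?_
  field_simp
  rw [sq_sqrt hn'.le]

end Vale.Agent.P150.Crit
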