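import Vale.Agent.P150.Interp
import Vale.Agent.P249.Lower.GaussEnergy

/-!
Concentration of Euclidean-Lipschitz functions of independent Gaussians, at exponential rate,
from the Maurey-Pisier moment inequality.
-/

open MeasureTheory ProbabilityTheory Real WithLp
open scoped NNReal ENNReal

namespace Vale.Agent.P150.Crit

open P249.Lower

variable {ι : Type*} [Fintype ι]

/-- `K`-Lipschitz for the Euclidean distance. -/
def EuLip (F : (ι → ℝ) → ℝ) (K : ℝ) : Prop :=
  ∀ g g', |F g - F g'| ≤ K * √(∑ i, (g i - g' i) ^ 2)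

lemma sqrt_sum_sq_le (a : ι → ℝ) : √(∑ i, a i ^ 2) ≤ ∑ i, |a i| := by
  refine sqrt_le_iff.2 ⟨Finset.sum_nonneg fun i _ => abs_nonneg _, ?_⟩
  simpa [sq_abs] using Finset.sum_sq_le_sq_sum_of_nonneg
    (s := Finset.univ) (f := fun i => |a i|) fun i _ => abs_nonneg _

lemma EuLip.coord {F : (ι → ℝ) → ℝ} {K : ℝ} (hK : 0 ≤ K) (hF : EuLip F K) (g g' : ι → ℝ) :
    |F g - F g'| ≤ ∑ i, K * |g i - g' i| := by
  rw [← Finset.mul_sum]
  exact (hF g g').trans (mul_le_mul_of_nonneg_left (sqrt_sum_sq_le _) hK)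

/-- The `k`-th absolute moment of a standard normal variable. -/
lemma normalMoment_le {k : ℕ} (hk : 1 ≤ k) : normalMoment k ≤ 2 * √(k:ℝ) ^ k := by
  have hk' : (0:ℝ) < k := Nat.cast_pos.2 hk
  have hs : 0 < √(k:ℝ) := sqrt_pos.2 hk'
  have hpt : ∀ z : ℝ, |z| ^ (k:ℝ) ≤
      √(k:ℝ) ^ k * exp (-(k:ℝ)) * (exp (√(k:ℝ) * z) + exp (-√(k:ℝ) * z)) := by
    intro z
    rw [rpow_natCast]
    have h1 : |z| / √(k:ℝ) ≤ exp (|z| / √(k:ℝ) - 1) := by
      have := add_one_le_exp (|z| / √(k:ℝ) - 1); linarith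
    have h2 := pow_le_pow_left₀ (by positivity) h1 k
    rw [div_pow, ← exp_nat_mul, div_le_iff₀ (by positivity)] at h2
    have h3 : (k:ℝ) * (|z| / √(k:ℝ) - 1) = -(k:ℝ) + √(k:ℝ) * |z| := by
      field_simp
      linear_combination -|z| * (sq_sqrt hk'.le)
    rw [h3, exp_add] at h2
    have h4 : exp (√(k:ℝ) * |z|) ≤ exp (√(k:ℝ) * z) + exp (-√(k:ℝ) * z) := by
      rcases le_total 0 z with h | h
      · rw [abs_of_nonneg h]; linarith [exp_pos (-√(k:ℝ) * z)]
      · rw [abs_of_nonpos h, mul_neg, ← neg_mul]; linarith [exp_pos (√(k:ℝ) * z)]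
    calc |z| ^ k ≤ exp (-(k:ℝ)) * exp (√(k:ℝ) * |z|) * √(k:ℝ) ^ k := h2
      _ ≤ exp (-(k:ℝ)) * (exp (√(k:ℝ) * z) + exp (-√(k:ℝ) * z)) * √(k:ℝ) ^ k := by gcongr
      _ = _ := by ring
  have e : ∀ a : ℝ, ∫ t, exp (a * t) ∂gaussianReal 0 1 = exp (a ^ 2 / 2) := fun a => by
    have := congrFun (mgf_id_gaussianReal (μ := 0) (v := 1)) a
    simpa [mgf] using this
  refine (integral_mono (normalMoment_integrable hk')
    (((integrable_exp_mul_gaussianReal _).add (integrable_exp_mul_gaussianReal _)).const_mul _)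
    hpt).trans ?_
  simp only [Pi.add_apply]
  rw [integral_const_mul, integral_add (integrable_exp_mul_gaussianReal _)
    (integrable_exp_mul_gaussianReal _), e, e, neg_sq, sq_sqrt hk'.le, ← two_mul, mul_assoc,
    mul_left_comm (exp _), ← exp_add, ← mul_assoc, mul_comm _ (2:ℝ), mul_assoc]
  refine mul_le_mul_of_nonneg_left (mul_le_of_le_one_right (by positivity) ?_) zero_le_two
  exact exp_le_one_iff.2 (by linarith)

variable {F : (ι → ℝ) → ℝ} {K : ℝ}

/-- Moments of the difference at two independent points. -/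
lemma moment_le (hK : 0 ≤ K) (hF : EuLip F K) {k : ℕ} (hk : 1 ≤ k) :
    Integrable (fun z : (ι → ℝ) × (ι → ℝ) => |F z.1 - F z.2| ^ k) ((gauss ι).prod (gauss ι)) ∧
      ∫ z, |F z.1 - F z.2| ^ k ∂(gauss ι).prod (gauss ι) ≤ (24 * √(k:ℝ) * K) ^ k := by
  have hc : Continuous F := continuous_of_coord_lip (hF.coord hK)
  set f : EuclideanSpace ℝ ι → ℝ := fun v => F (ofLp v)
  have hf : LipschitzWith K.toNNReal f := LipschitzWith.of_dist_le_mul fun v v' => by
    rw [Real.dist_eq, coe_toNNReal _ hK, EuclideanSpace.dist_eq]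
    refine (hF _ _).trans_eq ?_
    simp [Real.dist_eq, sq_abs]
  have hk1 : (1:ℝ) ≤ k := by exact_mod_cast hk
  have h := energy_lipschitz (p := (k:ℝ)) hk1 hf
  have hm : Measurable fun z : EuclideanSpace ℝ ι × EuclideanSpace ℝ ι =>
      ENNReal.ofReal (|f z.1 - f z.2| ^ (k:ℝ)) :=
    (((hf.continuous.comp continuous_fst).sub (hf.continuous.comp continuous_snd)).abs.rpow_const
      fun _ => Or.inr (by positivity)).measurable.ennreal_ofReal
  rw [← map_pi_eq_stdGaussian, Measure.map_prod_map _ _ (by fun_prop) (by fun_prop),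
    lintegral_map hm (by fun_prop), coe_toNNReal _ hK] at h
  simp only [Prod.map, f, rpow_natCast] at h
  have hB : 2 ^ k * ((π / 2) ^ k * normalMoment k + 2 ^ k) * K ^ k ≤ (24 * √(k:ℝ) * K) ^ k := by
    have hs : 1 ≤ √(k:ℝ) := one_le_sqrt.2 hk1
    have h1 : (π / 2) ^ k * normalMoment k + 2 ^ k ≤ 3 * (4 * √(k:ℝ)) ^ k := by
      calc (π / 2) ^ k * normalMoment k + 2 ^ k
          ≤ 4 ^ k * (2 * √(k:ℝ) ^ k) + (4 * √(k:ℝ)) ^ k := by
            refine add_le_add (mul_le_mul ?_ (normalMoment_le hk) (normalMoment_nonneg _)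
              (by positivity)) (pow_le_pow_left₀ zero_le_two (by linarith) k)
            exact pow_le_pow_left₀ (by positivity) (by linarith [pi_le_four]) k
        _ = _ := by rw [mul_pow]; ring
    have h2 : (3:ℝ) ≤ 3 ^ k := le_self_pow₀ (by norm_num) (by omega)
    calc 2 ^ k * ((π / 2) ^ k * normalMoment k + 2 ^ k) * K ^ k
        ≤ 2 ^ k * (3 ^ k * (4 * √(k:ℝ)) ^ k) * K ^ k := by
          gcongr
          exact h1.trans (mul_le_mul_of_nonneg_right h2 (by positivity))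
      _ = _ := by rw [← mul_pow, ← mul_pow, ← mul_pow]; ring
  have hnn : 0 ≤ᵐ[(gauss ι).prod (gauss ι)] fun z => |F z.1 - F z.2| ^ k :=
    ae_of_all _ fun z => by positivity
  have hasm : AEStronglyMeasurable (fun z : (ι → ℝ) × (ι → ℝ) => |F z.1 - F z.2| ^ k)
      ((gauss ι).prod (gauss ι)) :=
    ((((hc.comp continuous_fst).sub (hc.comp continuous_snd))).abs.pow k).aestronglyMeasurable
  refine ⟨⟨hasm, (hasFiniteIntegral_iff_ofReal hnn).2 (h.trans_lt ENNReal.ofReal_lt_top)⟩, ?_⟩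
  rw [integral_eq_lintegral_of_nonneg_ae hnn hasm]
  exact ENNReal.toReal_le_of_le_ofReal (by positivity)
    (h.trans (ENNReal.ofReal_le_ofReal hB))

/-- The mean deviation. -/
lemma mean_dev_le (hK : 0 ≤ K) (hF : EuLip F K) :
    ∫ g, |F g - ∫ g', F g' ∂gauss ι| ∂gauss ι ≤ 24 * K := by
  obtain ⟨hi, hb⟩ := moment_le hK hF le_rfl (k := 1)
  simp only [pow_one, Nat.cast_one, sqrt_one, mul_one] at hi hb
  have hFi := integrable_of_coord_lip (hF.coord hK)
  refine (integral_mono (hFi.sub (integrable_const _)).abs hi.integral_prod_left fun g => ?_).trans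
    ((integral_prod _ hi).symm.le.trans hb)
  have e : F g - ∫ g', F g' ∂gauss ι = ∫ g', (F g - F g') ∂gauss ι := by
    rw [integral_sub (integrable_const _) hFi]; simp
  show |F g - ∫ g', F g' ∂gauss ι| ≤ _
  rw [e]
  exact abs_integral_le_integral_abs

/-- Exponential concentration. -/
theorem conc (hK : 0 ≤ K) (hF : EuLip F K) {k : ℕ} (hk : 1 ≤ k) {t : ℝ} (ht : 0 < t) :
    (gauss ι).real {g | t < |F g - ∫ g', F g' ∂gauss ι|} ≤ 2 * (96 * √(k:ℝ) * K / t) ^ k := by
  rcases le_or_gt 1 (96 * √(k:ℝ) * K / t) with h | h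
  · exact measureReal_le_one.trans (by linarith [one_le_pow₀ h (n := k)])
  set P := gauss ι
  set M := ∫ g', F g' ∂gauss ι
  set A := {g | t < |F g - M|}
  set B := {g | |F g - M| ≤ t / 2}
  have hc : Continuous F := continuous_of_coord_lip (hF.coord hK)
  have hFi := integrable_of_coord_lip (hF.coord hK)
  have hs : 1 ≤ √(k:ℝ) := one_le_sqrt.2 (by exact_mod_cast hk)
  have hKt : 96 * K < t := by
    rw [div_lt_one ht] at h
    nlinarith
  have hB : 1 / 2 ≤ P.real B := by
    have h1 := mul_meas_ge_le_integral_of_nonneg (μ := P) (ae_of_all _ fun g => abs_nonneg (F g - M))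
      (hFi.sub (integrable_const M)).abs (t / 2)
    have h2 := h1.trans (mean_dev_le hK hF)
    have h3 : P.real {g | t / 2 ≤ |F g - M|} ≤ 1 / 2 := by
      rw [← le_div_iff₀' (by positivity)] at h2
      refine h2.trans ?_
      rw [div_le_iff₀ (by positivity)]; linarith
    have h4 : (1:ℝ) ≤ P.real B + P.real {g | t / 2 ≤ |F g - M|} := by
      rw [← probReal_univ (μ := P)]
      refine le_trans (measureReal_mono fun g _ => ?_) (measureReal_union_le _ _)
      exact (le_total (|F g - M|) (t / 2)).imp id id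
    linarith
  obtain ⟨hi, hb⟩ := moment_le hK hF hk
  have h1 := mul_meas_ge_le_integral_of_nonneg (μ := P.prod P)
    (ae_of_all _ fun z => pow_nonneg (abs_nonneg (F z.1 - F z.2)) k) hi ((t / 2) ^ k)
  have h2 : P.real A * P.real B ≤ (P.prod P).real {z | (t / 2) ^ k ≤ |F z.1 - F z.2| ^ k} := by
    rw [← measureReal_prod_prod]
    refine measureReal_mono fun z hz => ?_
    obtain ⟨hz1, hz2⟩ := hz
    simp only [A, B, Set.mem_ofPred_eq] at hz1 hz2 ⊢
    refine pow_le_pow_left₀ (by positivity) ?_ k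
    have := abs_sub_le (F z.1) (F z.2) M
    linarith
  have h3 : (P.prod P).real {z | (t / 2) ^ k ≤ |F z.1 - F z.2| ^ k} ≤ (48 * √(k:ℝ) * K / t) ^ k := by
    rw [show 48 * √(k:ℝ) * K / t = 24 * √(k:ℝ) * K / (t / 2) by ring,
      div_pow (24 * √(k:ℝ) * K) (t / 2) k, le_div_iff₀ (by positivity), mul_comm]
    exact h1.trans hb
  have hA0 : 0 ≤ P.real A := measureReal_nonneg
  have h4 : P.real A ≤ 2 * (48 * √(k:ℝ) * K / t) ^ k := by nlinarith
  refine h4.trans (mul_le_mul_of_nonneg_left (pow_le_pow_left₀ (by positivity) ?_ k) zero_le_two)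
  gcongr
  norm_num

end Vale.Agent.P150.Crit
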