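import Vale.Agent.P150.Crit.Stein
import Vale.Agent.P150.Crit.Free

/-!
Critical slowing down: for `0 < β ≤ 1` the spectral gap of the SK heat-bath dynamics is, with high
probability, at most `(1 - β)² + ε`.
-/

open MeasureTheory ProbabilityTheory Filter Real
open scoped Topology

namespace Vale.Agent.P150.Crit

open Gap

variable {n : ℕ} {w : ℂ}

/-- The bound obtained at the parameter `t`. -/
noncomputable def bnd (β t : ℝ) : ℝ :=
  ((1 - β) + 3 * t) ^ 2 * (1 + 32 * t) / ((1 - 16 * t) * (1 - t))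

lemma exists_param (β : ℝ) {ε : ℝ} (hε : 0 < ε) :
    ∃ t : ℝ, 0 < t ∧ t ≤ 1 / 64 ∧ bnd β t < (1 - β) ^ 2 + ε := by
  have hc : ContinuousAt (bnd β) 0 := by
    unfold bnd
    exact ContinuousAt.div (by fun_prop) (by fun_prop) (by norm_num)
  have h0 : bnd β 0 < (1 - β) ^ 2 + ε := by simp [bnd, hε]
  have h1 := (hc.eventually (gt_mem_nhds h0)).filter_mono (nhdsWithin_le_nhds (s := Set.Ioi (0:ℝ)))
  obtain ⟨t, ht, ht'⟩ := (h1.and (Ioc_mem_nhdsGT (show (0:ℝ) < 1 / 64 by norm_num))).exists
  exact ⟨t, ht'.1, ht'.2, ht⟩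

/-- The resolvent form at a configuration, normalised: `-Im x·G x / n`. -/
noncomputable def qf (g : Edge n → ℝ) (w : ℂ) (x : Conf n) : ℝ := -(form g w (spin x)).im / n

lemma qf_nonneg (g : Edge n → ℝ) (hw : 0 < w.im) (x : Conf n) : 0 ≤ qf g w x :=
  div_nonneg (neg_nonneg.2 (form_im_nonpos g hw _)) (Nat.cast_nonneg _)

lemma continuous_qf (hw : 0 < w.im) (x : Conf n) : Continuous fun g : Edge n → ℝ => qf g w x :=
  ((Complex.continuous_im.comp (continuous_form hw _)).neg).div_const _

/-- The unnormalised Gibbs mass of the configurations with a small form. -/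
noncomputable def badWt (β : ℝ) (w : ℂ) (θ : ℝ) (g : Edge n → ℝ) : ℝ :=
  ∑ x, if qf g w x < θ then exp (β * energy g x) else 0

/-- The planted event. -/
def planted (β : ℝ) (w : ℂ) (θ : ℝ) : Set (Edge n → ℝ) :=
  {g | -(form (fun e => β / √n + g e) w (fun _ => 1)).im / n < θ}

/-- The expected bad weight is the annealed partition function times the planted probability. -/
lemma integral_badWt (β θ : ℝ) (hw : 0 < w.im) :
    Integrable (badWt (n := n) β w θ) (gauss (Edge n)) ∧
      ∫ g, badWt β w θ g ∂gauss (Edge n) =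
        (2:ℝ) ^ n * exp (β ^ 2 * (Fintype.card (Edge n) : ℝ) / (2 * n)) *
          (gauss (Edge n)).real (planted β w θ) := by
  set P := gauss (Edge n)
  have hB : ∀ x : Conf n, MeasurableSet {g : Edge n → ℝ | qf g w x < θ} := fun x =>
    measurableSet_lt (continuous_qf hw x).measurable measurable_const
  have hi : ∀ x : Conf n, Integrable (fun g => exp (β * energy g x)) P := fun x => by
    simp only [exp_energy_eq]; exact integrable_gauss_exp _
  have hite : ∀ (x : Conf n) (g : Edge n → ℝ), (if qf g w x < θ then exp (β * energy g x) else 0) =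
      {g : Edge n → ℝ | qf g w x < θ}.indicator (fun g => exp (β * energy g x)) g := fun x g => by
    simp [Set.indicator_apply]
  have hC : MeasurableSet (planted (n := n) β w θ) :=
    measurableSet_lt (((Complex.continuous_im.comp ((continuous_form hw _).comp
      (by fun_prop : Continuous fun g : Edge n → ℝ => fun e => β / √n + g e))).neg).div_const
      _).measurable measurable_const
  rw [show badWt β w θ = fun g : Edge n → ℝ => ∑ x : Conf n,
      {g : Edge n → ℝ | qf g w x < θ}.indicator (fun g => exp (β * energy g x)) g from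
    funext fun g => Finset.sum_congr rfl fun x _ => hite x g]
  refine ⟨integrable_finsetSum _ fun x _ => (hi x).indicator (hB x), ?_⟩
  rw [integral_finsetSum _ fun x _ => (hi x).indicator (hB x)]
  have hx : ∀ x : Conf n,
      ∫ g, {g : Edge n → ℝ | qf g w x < θ}.indicator (fun g => exp (β * energy g x)) g ∂P =
        exp (β ^ 2 * (Fintype.card (Edge n) : ℝ) / (2 * n)) * P.real (planted β w θ) := by
    intro x
    set v : Edge n → ℝ := fun e => β / √n * pairSpin x e
    have hv : ∑ e, v e ^ 2 / 2 = β ^ 2 * (Fintype.card (Edge n) : ℝ) / (2 * n) := by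
      simp only [v, mul_pow, pairSpin_sq, mul_one, div_pow, sq_sqrt (Nat.cast_nonneg _),
        Finset.sum_const, Finset.card_univ, nsmul_eq_mul]
      ring
    have he : ∀ g : Edge n → ℝ, exp (β * energy g x) =
        exp (β ^ 2 * (Fintype.card (Edge n) : ℝ) / (2 * n)) * P146.tilt v g := fun g => by
      rw [exp_energy_eq, P146.tilt, hv, ← exp_add]
      congr 1
      simp only [v]
      rw [add_sub_cancel]
      exact Finset.sum_congr rfl fun e _ => by ring
    have hmp := P146.gauss_sign (pairSpin x) fun e => (abs_eq zero_le_one).1 (abs_pairSpin x e)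
    have hset : {g : Edge n → ℝ | (fun e => v e + g e) ∈ {g : Edge n → ℝ | qf g w x < θ}} =
        (fun g : Edge n → ℝ => fun e => pairSpin x e * g e) ⁻¹' planted β w θ := by
      ext g
      have hg : (fun e => v e + g e) =
          gauge x (fun e => β / √n + pairSpin x e * g e) := funext fun e => by
        simp only [gauge, v]
        linear_combination (-g e) * pairSpin_sq x e
      simp only [Set.mem_ofPred_eq, Set.mem_preimage, planted, qf, hg, form_gauge x _ hw]
    rw [integral_indicator (hB x)]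
    simp only [he, integral_const_mul]
    rw [P146.integral_tilt_indicator _ (hB x), hset, measureReal_def, measureReal_def,
      hmp.measure_preimage hC.nullMeasurableSet]
  simp only [hx, Finset.sum_const, Finset.card_univ, nsmul_eq_mul]
  rw [Fintype.card_pi, Finset.prod_const, Finset.card_univ, Fintype.card_fin, Fintype.card_bool]
  push_cast
  ring

/-- Exponential concentration of the form at the all-ones vector. -/
lemma sone_conc (hw : 0 < w.im) {δ : ℝ} (hδ : 0 < δ) :
    ∃ m : ℕ, 0 < m ∧ ∀ᶠ n : ℕ in atTop,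
      (gauss (Edge n)).real {g | δ < ‖sone g w - sbar n w‖} ≤
        4 * exp (-((n:ℝ) * (log 2 / m))) := by
  set η := w.im
  obtain ⟨m, hm⟩ := exists_nat_gt ((384 / (η ^ 2 * δ)) ^ 2 * 4)
  have hm0 : (0:ℝ) < m := lt_of_le_of_lt (by positivity) hm
  refine ⟨m, Nat.cast_pos.1 hm0, ?_⟩
  filter_upwards [eventually_ge_atTop m] with n hn
  have hmn : (m:ℝ) ≤ n := by exact_mod_cast hn
  have hn' : (0:ℝ) < n := hm0.trans_le hmn
  set k := ⌈(n:ℝ) / m⌉₊ with hk
  have hk1 : (n:ℝ) / m ≤ k := Nat.le_ceil _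
  have hk0 : 1 ≤ k := Nat.one_le_iff_ne_zero.2 fun h => by
    rw [h, Nat.cast_zero] at hk1
    linarith [div_pos hn' hm0]
  have hk2 : (k:ℝ) ≤ 2 * n / m := by
    have h1 := Nat.ceil_lt_add_one (div_nonneg hn'.le hm0.le)
    rw [← hk] at h1
    have : (1:ℝ) ≤ n / m := by rw [le_div_iff₀ hm0]; linarith
    rw [show 2 * (n:ℝ) / m = n / m + n / m by ring]
    linarith
  have hρ : 96 * √(k:ℝ) * lipK n η / (δ / 2) ≤ 1 / 2 := by
    have h2 : √(k:ℝ) * √(2 / n) ≤ √(4 / m) := by
      rw [← sqrt_mul (Nat.cast_nonneg k)]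
      refine sqrt_le_sqrt ((mul_le_mul_of_nonneg_right hk2 (by positivity)).trans_eq ?_)
      field_simp; ring
    have h3 : 384 / (η ^ 2 * δ) * √(4 / m) ≤ 1 := by
      rw [← sqrt_sq (show 0 ≤ 384 / (η ^ 2 * δ) by positivity), ← sqrt_mul (sq_nonneg _),
        sqrt_le_one, mul_div_assoc', div_le_one hm0]
      exact hm.le
    calc 96 * √(k:ℝ) * lipK n η / (δ / 2)
        = 384 / (η ^ 2 * δ) * (√(k:ℝ) * √(2 / n)) / 2 := by rw [lipK]; ring
      _ ≤ 384 / (η ^ 2 * δ) * √(4 / m) / 2 := by gcongr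
      _ ≤ 1 / 2 := by gcongr
  have hK := lipK_nonneg n η
  have hsi : Integrable (fun g : Edge n → ℝ => sone g w) (gauss (Edge n)) :=
    integrableC ((continuous_form hw _).div_const _) fun g => norm_sone_le g hw
  have h1 : EuLip (fun g : Edge n → ℝ => (sone g w).re) (lipK n η) := fun g g' => by
    rw [← Complex.sub_re]; exact (Complex.abs_re_le_norm _).trans (norm_sone_lip g g' hw)
  have h2 : EuLip (fun g : Edge n → ℝ => (sone g w).im) (lipK n η) := fun g g' => by
    rw [← Complex.sub_im]; exact (Complex.abs_im_le_norm _).trans (norm_sone_lip g g' hw)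
  have e1 : ∫ g, (sone g w).re ∂gauss (Edge n) = (sbar n w).re := by
    rw [← integral_sone hw]; exact Complex.reCLM.integral_comp_comm hsi
  have e2 : ∫ g, (sone g w).im ∂gauss (Edge n) = (sbar n w).im := by
    rw [← integral_sone hw]; exact Complex.imCLM.integral_comp_comm hsi
  have c1 := conc hK h1 hk0 (half_pos hδ)
  have c2 := conc hK h2 hk0 (half_pos hδ)
  rw [e1] at c1; rw [e2] at c2
  refine (measureReal_mono (s₂ := {g | δ / 2 < |(sone g w).re - (sbar n w).re|} ∪
    {g | δ / 2 < |(sone g w).im - (sbar n w).im|}) fun g hg => ?_).trans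
    ((measureReal_union_le _ _).trans ((add_le_add c1 c2).trans ?_))
  · simp only [Set.mem_union, Set.mem_ofPred_eq] at hg ⊢
    by_contra hc
    push Not at hc
    have := Complex.norm_le_abs_re_add_abs_im (sone g w - sbar n w)
    simp only [Complex.sub_re, Complex.sub_im] at this
    linarith
  · have h4 : (1 / 2 : ℝ) ^ k ≤ exp (-((n:ℝ) * (log 2 / m))) := by
      calc (1 / 2 : ℝ) ^ k = exp (-((k:ℝ) * log 2)) := by
            rw [exp_neg, exp_nat_mul, exp_log two_pos, one_div, inv_pow]
        _ ≤ _ := by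
            rw [exp_le_exp, neg_le_neg_iff, mul_div_assoc', div_eq_mul_inv, mul_right_comm,
              ← div_eq_mul_inv]
            exact mul_le_mul_of_nonneg_right hk1 (log_nonneg (by norm_num))
    have h5 := pow_le_pow_left₀ (by positivity) hρ k
    linarith

lemma tendsto_lipK (η : ℝ) : Tendsto (fun n : ℕ => lipK n η) atTop (𝓝 0) := by
  have h := ((tendsto_const_div_atTop_nhds_zero_nat (2:ℝ)).sqrt).div_const (η ^ 2)
  simpa [lipK] using h

/-- Where the form at the all-ones vector is near its mean, the planted form is large. -/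
lemma planted_subset {β t : ℝ} (h0 : 0 < β) (h1 : β ≤ 1) (ht0 : 0 < t) (ht1 : t ≤ 1 / 64)
    (hn0 : 0 < n) (hw : 0 < w.im) (hr1 : ‖1 - sbar n w‖ ≤ 2 * t)
    (hr2 : t / 16 ≤ (1 - sbar n w).im) :
    planted (n := n) β (w - ((β / n : ℝ) : ℂ))
        (((1 - sbar n w).im - t ^ 2) / ((1 - β) + 3 * t) ^ 2) ⊆
      {g | t ^ 2 < ‖sone g w - sbar n w‖} := by
  intro g hg
  simp only [planted, Set.mem_ofPred_eq, form_planted g hw hn0 β] at hg
  simp only [Set.mem_ofPred_eq]
  by_contra hle
  push Not at hle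
  set S := sone g w
  have hgap : 0 < (1 - sbar n w).im - t ^ 2 := by nlinarith
  have hSi : (1 - sbar n w).im - t ^ 2 ≤ -S.im := by
    have h' := abs_le.1 ((Complex.abs_im_le_norm _).trans hle)
    simp only [Complex.sub_im, Complex.one_im] at h' ⊢
    linarith
  have hne : (0:ℝ) < Complex.normSq (1 - β * S) := by
    refine Complex.normSq_pos.2 fun h => ?_
    have h' := congrArg Complex.im h
    simp only [Complex.sub_im, Complex.one_im, Complex.im_ofReal_mul, Complex.zero_im] at h'
    nlinarith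
  have hDb : Complex.normSq (1 - β * S) ≤ ((1 - β) + 3 * t) ^ 2 := by
    rw [Complex.normSq_eq_norm_sq]
    refine pow_le_pow_left₀ (norm_nonneg _) ?_ 2
    have e : (1:ℂ) - β * S =
        ((1 - β : ℝ) : ℂ) + (β : ℂ) * (1 - sbar n w) - (β : ℂ) * (S - sbar n w) := by
      push_cast; ring
    rw [e]
    refine (norm_sub_le _ _).trans ((add_le_add (norm_add_le _ _) le_rfl).trans ?_)
    simp only [norm_mul, Complex.norm_real, Real.norm_eq_abs, abs_of_pos h0,
      abs_of_nonneg (sub_nonneg.2 h1)]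
    have a1 : β * ‖1 - sbar n w‖ ≤ 2 * t :=
      (mul_le_of_le_one_left (norm_nonneg _) h1).trans hr1
    have a2 : β * ‖S - sbar n w‖ ≤ t :=
      (mul_le_of_le_one_left (norm_nonneg _) h1).trans (hle.trans (by nlinarith))
    linarith
  have : ((1 - sbar n w).im - t ^ 2) / ((1 - β) + 3 * t) ^ 2 ≤ -S.im / Complex.normSq (1 - β * S) :=
    div_le_div₀ (by linarith) hSi hne hDb
  linarith

/-- A Poincaré constant is at most the bound when the bad Gibbs mass and the trace are as expected. -/
lemma lam_le {β t lam l : ℝ} {g : Edge n → ℝ} (h1 : β ≤ 1) (ht0 : 0 < t) (ht1 : t ≤ 1 / 64)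
    (hn' : (0:ℝ) < n) (hw : 0 < w.im) (hr2 : t / 16 ≤ (1 - sbar n w).im)
    (hsh : √(n:ℝ) * |β / n| / w.im ^ 2 ≤ t ^ 2)
    (hlse : l ≤ lse (wsum (pairCoef n (β / √n)) g))
    (hbad : badWt β (w - ((β / n : ℝ) : ℂ))
      (((1 - sbar n w).im - t ^ 2) / ((1 - β) + 3 * t) ^ 2) g ≤ t * exp l)
    (htr : ‖strace g w - sbar n w‖ ≤ t ^ 2)
    (hlam : ∀ f : Conf n → ℝ, lam * (avg β g (fun x => f x ^ 2) - avg β g f ^ 2) ≤
      -avg β g (fun x => f x * gen β g f x)) :
    lam ≤ bnd β t := by
  obtain ⟨wn, hwn⟩ : ∃ v, v = w - ((β / n : ℝ) : ℂ) := ⟨_, rfl⟩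
  obtain ⟨ri, hri⟩ : ∃ v, v = (1 - sbar n w).im := ⟨_, rfl⟩
  obtain ⟨D, hD⟩ : ∃ v, v = (1 - β) + 3 * t := ⟨_, rfl⟩
  obtain ⟨θ, hθ⟩ : ∃ v, v = (ri - t ^ 2) / D ^ 2 := ⟨_, rfl⟩
  rw [← hwn, ← hri, ← hD, ← hθ] at hbad
  rw [← hri] at hr2
  have hD0 : 0 < D := by linarith
  have hgap : 0 < ri - t ^ 2 := by nlinarith
  have hθ0 : 0 < θ := by rw [hθ]; positivity
  have hwn0 : 0 < wn.im := by simpa [hwn] using hw
  rcases le_or_gt lam 0 with hl | hl
  · exact hl.trans (div_nonneg (by positivity) (mul_nonneg (by linarith) (by linarith)))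
  have hpart : exp (l) ≤ part β g := by rw [part_eq_exp_lse]; exact exp_le_exp.2 hlse
  have hpp : 0 < part β g := partition_pos β g
  have hq : θ * (1 - t) ≤ avg β g (fun x => qf g wn x) := by
    have h1' : avg β g (fun x => θ - (if qf g wn x < θ then θ else 0)) ≤
        avg β g (fun x => qf g wn x) := by
      refine Finset.sum_le_sum fun x _ => mul_le_mul_of_nonneg_left ?_ (gibbs_pos β g x).le
      beta_reduce
      split_ifs with h
      · rw [sub_self]; exact qf_nonneg g hwn0 x
      · linarith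
    have h2' : avg β g (fun x => θ - (if qf g wn x < θ then θ else 0)) =
        θ - θ * (badWt β wn θ g / part β g) := by
      have hpt : ∀ x, gibbs β g x * (θ - (if qf g wn x < θ then θ else 0)) = gibbs β g x * θ -
          θ * ((if qf g wn x < θ then exp (β * energy g x) else 0) / part β g) := by
        intro x
        simp only [gibbs, part]
        split_ifs <;> ring
      simp only [avg, hpt, Finset.sum_sub_distrib, ← Finset.sum_mul, sum_gibbs, one_mul,
        ← Finset.mul_sum, ← Finset.sum_div, badWt]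
    have h3 : badWt β wn θ g / part β g ≤ t := by
      rw [div_le_iff₀ hpp]
      exact hbad.trans (mul_le_mul_of_nonneg_left hpart ht0.le)
    nlinarith [mul_le_mul_of_nonneg_left h3 hθ0.le]
  have hgf := gap_form hlam hwn0
  have hq2 : avg β g (fun x => -(form g wn (spin x)).im) = n * avg β g (fun x => qf g wn x) := by
    simp only [avg, qf, Finset.mul_sum]
    exact Finset.sum_congr rfl fun x _ => by field_simp
  have hst : -(∑ i, res g wn i i).im = n * -(strace g wn).im := by
    rw [strace, Complex.div_natCast_im]; field_simp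
  rw [hq2, hst, mul_left_comm] at hgf
  have hgf' := le_of_mul_le_mul_left hgf hn'
  have htop : -(strace g wn).im ≤ ri + 2 * t ^ 2 := by
    have ha := abs_le.1 ((Complex.abs_im_le_norm _).trans htr)
    have hb := abs_le.1 ((Complex.abs_im_le_norm _).trans
      ((norm_strace_shift g hw (β / n)).trans hsh))
    simp only [Complex.sub_im, hri, Complex.one_im, ← hwn] at ha hb ⊢
    linarith
  have hmain : lam * (θ * (1 - t)) ≤ ri + 2 * t ^ 2 :=
    ((mul_le_mul_of_nonneg_left hq hl.le).trans hgf').trans htop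
  have hp1 : 0 < 1 - 16 * t := by linarith
  have hp2 : 0 < 1 - t := by linarith
  rw [bnd, ← hD, le_div_iff₀ (mul_pos hp1 hp2)]
  have hA1 : ri + 2 * t ^ 2 ≤ ri * (1 + 32 * t) := by nlinarith
  have hA2 : ri * (1 - 16 * t) ≤ ri - t ^ 2 := by nlinarith
  rw [hθ, div_mul_eq_mul_div, mul_div_assoc', div_le_iff₀ (by positivity)] at hmain
  have hA3 : lam * (ri * (1 - 16 * t) * (1 - t)) ≤ ri * (1 + 32 * t) * D ^ 2 :=
    ((mul_le_mul_of_nonneg_left (mul_le_mul_of_nonneg_right hA2 hp2.le) hl.le).trans hmain).trans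
      (mul_le_mul_of_nonneg_right hA1 (sq_nonneg D))
  have hri0 : 0 < ri := by linarith
  refine le_of_mul_le_mul_left ?_ hri0
  linarith

/-- Critical slowing down: the gap is at most `(1 - β)² + ε` with high probability. -/
theorem gap_le_critical (β : ℝ) (h0 : 0 < β) (h1 : β ≤ 1) (ε : ℝ) (hε : 0 < ε) :
    Tendsto (fun n => disorder n {g | ¬ ∀ lam : ℝ,
      (∀ f : Conf n → ℝ, lam * (avg β g (fun x => f x ^ 2) - avg β g f ^ 2) ≤
        -avg β g (fun x => f x * gen β g f x)) →
      lam ≤ (1 - β) ^ 2 + ε}) atTop (𝓝 0) := by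
  obtain ⟨t, ht0, ht1, hbnd⟩ := exists_param β hε
  set w : ℂ := 2 + Complex.I * ((t ^ 2 : ℝ) : ℂ) with hw_def
  have hwim : w.im = t ^ 2 := by
    simp only [hw_def, Complex.add_im, Complex.mul_im, Complex.I_re, Complex.I_im, Complex.ofReal_re,
      Complex.ofReal_im, Complex.im_ofNat]
    ring
  have hw : 0 < w.im := by rw [hwim]; positivity
  obtain ⟨δ, hδ⟩ : ∃ v, v = t ^ 2 := ⟨_, rfl⟩
  have hδ0 : 0 < δ := by rw [hδ]; positivity
  obtain ⟨m, hm, hconc⟩ := sone_conc hw hδ0
  have hm' : (0:ℝ) < m := Nat.cast_pos.2 hm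
  set dL := log 2 / (2 * m) with hdL
  have hdL0 : 0 < dL := div_pos (log_pos one_lt_two) (by positivity)
  set L : ℕ → ℝ := fun n => n * (log 2 + β ^ 2 / 4 - dL)
  have hroot : ∀ᶠ n : ℕ in atTop,
      ‖1 - sbar n w‖ ≤ 2 * t ∧ t / 16 ≤ (1 - sbar n w).im := by
    have hlim : Tendsto (fun n : ℕ => 3 / w.im ^ 2 / (n:ℝ) + 96 / w.im * lipK n w.im) atTop
        (𝓝 0) := by
      simpa using (tendsto_const_div_atTop_nhds_zero_nat (3 / w.im ^ 2)).add
        ((tendsto_lipK w.im).const_mul (96 / w.im))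
    filter_upwards [hlim.eventually (eventually_le_nhds (show (0:ℝ) < t ^ 2 / 2 by positivity)),
      eventually_gt_atTop 0] with n hn hn0
    refine root_bounds (e := w * sbar n w - 1 - sbar n w ^ 2) ht0 (by linarith) ?_ ?_ ?_
    · rw [hw_def]; push_cast; ring
    · refine (stein hw hn0).trans (le_trans (le_of_eq ?_) hn)
      rw [div_mul_eq_div_div]
    · simpa using sbar_im_nonpos (n := n) hw
  have hA := tendsto_lse_low h0 h1 hdL0
  have hlimX : Tendsto (fun n : ℕ => 4 / t * exp (-((n:ℝ) * dL))) atTop (𝓝 0) := by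
    have : Tendsto (fun n : ℕ => exp (-((n:ℝ) * dL))) atTop (𝓝 0) :=
      tendsto_exp_neg_atTop_nhds_zero.comp
        (tendsto_natCast_atTop_atTop.atTop_mul_const hdL0)
    simpa using this.const_mul (4 / t)
  have hlimS : Tendsto (fun n : ℕ => 48 * lipK n w.im / δ) atTop (𝓝 0) := by
    simpa using ((tendsto_lipK w.im).const_mul 48).div_const δ
  have hshift : ∀ᶠ n : ℕ in atTop, √(n:ℝ) * |β / n| / w.im ^ 2 ≤ δ := by
    have : Tendsto (fun n : ℕ => β / w.im ^ 2 * (√(n:ℝ))⁻¹) atTop (𝓝 0) := by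
      simpa using ((tendsto_sqrt_atTop.comp tendsto_natCast_atTop_atTop).inv_tendsto_atTop).const_mul
        (β / w.im ^ 2)
    filter_upwards [this.eventually (eventually_le_nhds hδ0), eventually_gt_atTop 0] with n hn hn0
    refine le_trans (le_of_eq ?_) hn
    have hn' : (0:ℝ) < n := Nat.cast_pos.2 hn0
    rw [abs_of_pos (div_pos h0 hn')]
    field_simp
    rw [sq_sqrt hn'.le]
  have key : ∀ᶠ n : ℕ in atTop, (disorder n).real {g | ¬ ∀ lam : ℝ,
      (∀ f : Conf n → ℝ, lam * (avg β g (fun x => f x ^ 2) - avg β g f ^ 2) ≤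
        -avg β g (fun x => f x * gen β g f x)) →
      lam ≤ (1 - β) ^ 2 + ε} ≤
      (disorder n).real {g | lse (wsum (pairCoef n (β / √n)) g) < L n} +
        4 / t * exp (-((n:ℝ) * dL)) + 48 * lipK n w.im / δ := by
    filter_upwards [hroot, hconc, hshift, eventually_gt_atTop 0] with n hr hc hsh hn0
    obtain ⟨hr1, hr2⟩ := hr
    have hn' : (0:ℝ) < n := Nat.cast_pos.2 hn0
    set P := gauss (Edge n)
    set ri := (1 - sbar n w).im with hri
    set D := (1 - β) + 3 * t with hD
    have hD0 : 0 < D := by rw [hD]; linarith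
    have hgap : 0 < ri - δ := by rw [hδ]; nlinarith
    set θ := (ri - δ) / D ^ 2 with hθ
    have hθ0 : 0 < θ := div_pos hgap (by positivity)
    set wn : ℂ := w - ((β / n : ℝ) : ℂ) with hwn
    have hwnim : wn.im = w.im := by simp [hwn]
    have hwn0 : 0 < wn.im := hwnim ▸ hw
    -- the planted probability
    have hpl : P.real (planted β wn θ) ≤ 4 * exp (-((n:ℝ) * (log 2 / m))) := by
      refine le_trans (measureReal_mono ?_) hc
      simp only [hθ, hri, hD, hwn, hδ]
      exact planted_subset h0 h1 ht0 ht1 hn0 hw hr1 hr2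
    -- the bad Gibbs mass
    obtain ⟨hXi, hX⟩ := integral_badWt (n := n) β θ hwn0
    have hX0 : ∀ g : Edge n → ℝ, 0 ≤ badWt β wn θ g := fun g =>
      Finset.sum_nonneg fun x _ => by split_ifs <;> positivity
    have hP2 : P.real {g | t * exp (L n) ≤ badWt β wn θ g} ≤ 4 / t * exp (-((n:ℝ) * dL)) := by
      have h := mul_meas_ge_le_integral_of_nonneg (μ := P) (ae_of_all _ hX0) hXi (t * exp (L n))
      rw [hX] at h
      rw [← le_div_iff₀' (by positivity)] at h
      refine h.trans ?_
      rw [div_le_iff₀ (by positivity)]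
      have hE : (2:ℝ) ^ n * exp (β ^ 2 * (Fintype.card (Edge n) : ℝ) / (2 * n)) ≤
          exp (n * log 2 + β ^ 2 * n / 4) := by
        rw [exp_add, exp_nat_mul, exp_log two_pos]
        refine mul_le_mul_of_nonneg_left (exp_le_exp.2 ?_) (by positivity)
        refine (div_le_div_of_nonneg_right (mul_le_mul_of_nonneg_left (card_edge_le n)
          (sq_nonneg β)) (by positivity)).trans_eq ?_
        field_simp; ring
      refine (mul_le_mul hE hpl measureReal_nonneg (exp_pos _).le).trans_eq ?_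
      rw [show 4 / t * exp (-((n:ℝ) * dL)) * (t * exp (L n)) =
        4 * (exp (-((n:ℝ) * dL)) * exp (L n)) by field_simp, ← exp_add, mul_left_comm, ← exp_add]
      congr 2
      simp only [L, hdL]
      field_simp
      ring
    -- the trace
    have hP3 : P.real {g | δ ≤ ‖strace g w - sbar n w‖} ≤ 48 * lipK n w.im / δ := by
      have hi := integrable_strace (n := n) hw
      have h := mul_meas_ge_le_integral_of_nonneg (μ := P)
        (ae_of_all _ fun g => norm_nonneg (strace g w - sbar n w)) (hi.sub (integrable_const _)).norm δ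
      rw [le_div_iff₀' hδ0]
      exact h.trans (dev_le (lipK_nonneg n w.im) hi fun g g' => norm_strace_lip g g' hw)
    rw [disorder_eq]
    refine le_trans (measureReal_mono (s₂ := {g | lse (wsum (pairCoef n (β / √n)) g) < L n} ∪
      {g | t * exp (L n) ≤ badWt β wn θ g} ∪ {g | δ ≤ ‖strace g w - sbar n w‖})
      fun g hg => ?_)
      ((measureReal_union_le _ _).trans (add_le_add ((measureReal_union_le _ _).trans
        (add_le_add le_rfl hP2)) hP3))
    by_contra hgood
    simp only [Set.mem_union, Set.mem_ofPred_eq, not_or, not_lt, not_le] at hgood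
    obtain ⟨⟨hlse, hbad⟩, htr⟩ := hgood
    refine hg fun lam hlam => ?_
    simp only [hθ, hri, hD, hwn, hδ] at hbad
    rw [hδ] at htr hsh
    exact (lam_le h1 ht0 ht1 hn' hw hr2 hsh hlse hbad.le htr.le hlam).trans hbnd.le
  have hsum : Tendsto (fun n : ℕ => (disorder n).real {g | lse (wsum (pairCoef n (β / √n)) g) < L n}
      + 4 / t * exp (-((n:ℝ) * dL)) + 48 * lipK n w.im / δ) atTop (𝓝 0) := by
    simpa using (hA.add hlimX).add hlimS
  refine tendsto_of_tendsto_of_tendsto_of_le_of_le' tendsto_const_nhds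
    (by simpa using ENNReal.tendsto_ofReal hsum) (Eventually.of_forall fun n => zero_le) ?_
  filter_upwards [key] with n hn
  rw [← ofReal_measureReal]
  exact ENNReal.ofReal_le_ofReal hn

end Vale.Agent.P150.Crit
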