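import Vale.Agent.P150.Gap.Goe
import Vale.Agent.P150.Gap.Mixing
import Vale.Agent.P150.Gap.Poincare

/-!
The resolvent of the normalised disorder matrix off the real axis: a priori bounds, Lipschitz
dependence on the disorder, gauge covariance, and the effect of planting the all-ones configuration.
-/

open Matrix Complex
open scoped ComplexConjugate

namespace Vale.Agent.P150.Crit

open Gap

variable {n : ℕ}

/-- `w - sym g / √n`. -/
noncomputable def pencil (g : Edge n → ℝ) (w : ℂ) : Matrix (Fin n) (Fin n) ℂ :=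
  fun i j => (if i = j then w else 0) - ((sym g i j / Real.sqrt n : ℝ) : ℂ)

/-- The resolvent. -/
noncomputable def res (g : Edge n → ℝ) (w : ℂ) : Matrix (Fin n) (Fin n) ℂ := (pencil g w)⁻¹

/-- Squared Euclidean norm of a complex vector. -/
noncomputable def nsq (u : Fin n → ℂ) : ℝ := ∑ i, ‖u i‖ ^ 2

/-- A real vector seen as a complex one. -/
def cvec (u : Fin n → ℝ) : Fin n → ℂ := fun i => (u i : ℂ)

/-- The quadratic form `u·G u` at a real vector. -/
noncomputable def form (g : Edge n → ℝ) (w : ℂ) (u : Fin n → ℝ) : ℂ :=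
  cvec u ⬝ᵥ res g w *ᵥ cvec u

/-- The normalised trace. -/
noncomputable def strace (g : Edge n → ℝ) (w : ℂ) : ℂ := (∑ i, res g w i i) / n

/-- The form at the all-ones vector, normalised. -/
noncomputable def sone (g : Edge n → ℝ) (w : ℂ) : ℂ := form g w (fun _ => 1) / n

lemma nsq_nonneg (u : Fin n → ℂ) : 0 ≤ nsq u := Finset.sum_nonneg fun _ _ => sq_nonneg _

lemma nsq_cvec (u : Fin n → ℝ) : nsq (cvec u) = ∑ i, u i ^ 2 := by
  simp [nsq, cvec]

lemma pencil_symm (g : Edge n → ℝ) (w : ℂ) (i j : Fin n) : pencil g w i j = pencil g w j i := by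
  simp [pencil, sym_comm g i j, eq_comm]

lemma pencil_mulVec (g : Edge n → ℝ) (w : ℂ) (u : Fin n → ℂ) (i : Fin n) :
    (pencil g w *ᵥ u) i = w * u i - ∑ j, ((sym g i j / Real.sqrt n : ℝ) : ℂ) * u j := by
  simp [pencil, Matrix.mulVec, dotProduct, sub_mul, Finset.sum_sub_distrib, ite_mul]

/-- The imaginary part of the Hermitian form of the pencil. -/
lemma im_star_pencil (g : Edge n → ℝ) (w : ℂ) (u : Fin n → ℂ) :
    (star u ⬝ᵥ pencil g w *ᵥ u).im = w.im * nsq u := by
  set R := ∑ i, ∑ j, conj (u i) * (((sym g i j / Real.sqrt n : ℝ) : ℂ) * u j) with hR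
  have e : star u ⬝ᵥ pencil g w *ᵥ u = w * (nsq u : ℂ) - R := by
    simp only [dotProduct, pencil_mulVec, mul_sub, Finset.sum_sub_distrib, hR, nsq, Pi.star_apply,
      RCLike.star_def, Finset.mul_sum]
    congr 1
    push_cast
    rw [Finset.mul_sum]
    exact Finset.sum_congr rfl fun i _ => by rw [← conj_mul']; ring
  have h : conj R = R := by
    simp only [hR, map_sum, map_mul, conj_conj, conj_ofReal]
    rw [Finset.sum_comm]
    exact Finset.sum_congr rfl fun i _ => Finset.sum_congr rfl fun j _ => by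
      rw [sym_comm g j i]; ring
  rw [e, sub_im, conj_eq_iff_im.1 h]
  simp

variable {w : ℂ}

lemma pencil_unit (g : Edge n → ℝ) (hw : 0 < w.im) : IsUnit (pencil g w).det := by
  rw [← Matrix.isUnit_iff_isUnit_det, ← Matrix.mulVec_injective_iff_isUnit]
  intro u v huv
  have h0 : pencil g w *ᵥ (u - v) = 0 := by rw [Matrix.mulVec_sub, huv, sub_self]
  have h := im_star_pencil g w (u - v)
  rw [h0, dotProduct_zero, zero_im] at h
  have h1 : nsq (u - v) = 0 := (mul_eq_zero.1 h.symm).resolve_left hw.ne'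
  funext i
  have := (Finset.sum_eq_zero_iff_of_nonneg fun i _ => sq_nonneg _).1 h1 i (Finset.mem_univ i)
  simpa [sub_eq_zero] using this

lemma pencil_res (g : Edge n → ℝ) (hw : 0 < w.im) (u : Fin n → ℂ) :
    pencil g w *ᵥ (res g w *ᵥ u) = u := by
  rw [Matrix.mulVec_mulVec, res, Matrix.mul_nonsing_inv _ (pencil_unit g hw), Matrix.one_mulVec]

lemma res_of_pencil (g : Edge n → ℝ) (hw : 0 < w.im) {u v : Fin n → ℂ}
    (h : pencil g w *ᵥ v = u) : res g w *ᵥ u = v := by
  rw [← h, Matrix.mulVec_mulVec, res, Matrix.nonsing_inv_mul _ (pencil_unit g hw), Matrix.one_mulVec]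

lemma res_symm (g : Edge n → ℝ) (w : ℂ) (i j : Fin n) : res g w i j = res g w j i := by
  have : (pencil g w)ᵀ = pencil g w := Matrix.ext fun i j => pencil_symm g w j i
  conv_rhs => rw [res, ← Matrix.transpose_apply (pencil g w)⁻¹ i j, Matrix.transpose_nonsing_inv, this]
  rfl

lemma dot_res_comm (g : Edge n → ℝ) (w : ℂ) (a b : Fin n → ℂ) :
    a ⬝ᵥ res g w *ᵥ b = res g w *ᵥ a ⬝ᵥ b := by
  simp only [dotProduct, Matrix.mulVec, Finset.mul_sum, Finset.sum_mul]
  rw [Finset.sum_comm]
  exact Finset.sum_congr rfl fun i _ => Finset.sum_congr rfl fun j _ => by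
    rw [res_symm g w j i]; ring

/-- The resolvent is bounded by `1/Im w`. -/
lemma nsq_res_le (g : Edge n → ℝ) (hw : 0 < w.im) (u : Fin n → ℂ) :
    w.im ^ 2 * nsq (res g w *ᵥ u) ≤ nsq u := by
  set v := res g w *ᵥ u with hv
  have h := im_star_pencil g w v
  rw [hv, pencil_res g hw, ← hv] at h
  have h2 : 2 * w.im * (star v ⬝ᵥ u).im ≤ w.im ^ 2 * nsq v + nsq u := by
    simp only [dotProduct, im_sum, nsq, Finset.mul_sum, ← Finset.sum_add_distrib]
    refine Finset.sum_le_sum fun i _ => ?_
    calc 2 * w.im * (star v i * u i).im ≤ 2 * w.im * ‖star v i * u i‖ :=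
          mul_le_mul_of_nonneg_left ((le_abs_self _).trans (abs_im_le_norm _)) (by positivity)
      _ ≤ _ := by
          rw [norm_mul, Pi.star_apply, norm_star]
          nlinarith [sq_nonneg (w.im * ‖v i‖ - ‖u i‖)]
  rw [h] at h2
  nlinarith

/-- `-Im u·G u = Im w |G u|²` for real `u`. -/
lemma neg_im_form (g : Edge n → ℝ) (hw : 0 < w.im) (u : Fin n → ℝ) :
    -(form g w u).im = w.im * nsq (res g w *ᵥ cvec u) := by
  set v := res g w *ᵥ cvec u with hv
  rw [← im_star_pencil g w v, hv, pencil_res g hw, ← hv]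
  have : form g w u = conj (star v ⬝ᵥ cvec u) := by
    simp only [form, ← hv, dotProduct, map_sum, map_mul, Pi.star_apply, RCLike.star_def, conj_conj,
      cvec, conj_ofReal]
    exact Finset.sum_congr rfl fun i _ => mul_comm _ _
  rw [this, conj_im, neg_neg]

lemma form_im_nonpos (g : Edge n → ℝ) (hw : 0 < w.im) (u : Fin n → ℝ) : (form g w u).im ≤ 0 := by
  have := neg_im_form g hw u
  have := mul_nonneg hw.le (nsq_nonneg (res g w *ᵥ cvec u))
  linarith

lemma cvec_single (j : Fin n) : cvec (Pi.single j 1) = Pi.single j 1 := by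
  funext i
  by_cases h : i = j
  · subst h; simp [cvec]
  · simp [cvec, h]

lemma form_single (g : Edge n → ℝ) (w : ℂ) (j : Fin n) :
    form g w (Pi.single j 1) = res g w j j := by
  simp [form, cvec_single]

lemma sum_norm_sq_col_le (g : Edge n → ℝ) (hw : 0 < w.im) (j : Fin n) :
    ∑ i, ‖res g w i j‖ ^ 2 ≤ 1 / w.im ^ 2 := by
  have h := nsq_res_le g hw (Pi.single j 1)
  simp only [nsq, Matrix.mulVec_single_one] at h
  rw [le_div_iff₀ (by positivity), mul_comm]
  refine h.trans_eq ?_
  rw [Finset.sum_eq_single j (fun i _ hi => by simp [hi]) (by simp)]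
  simp

lemma norm_res_le (g : Edge n → ℝ) (hw : 0 < w.im) (i j : Fin n) : ‖res g w i j‖ ≤ 1 / w.im := by
  have h : ‖res g w i j‖ ^ 2 ≤ 1 / w.im ^ 2 :=
    (Finset.single_le_sum (fun k _ => sq_nonneg ‖res g w k j‖) (Finset.mem_univ i)).trans
      (sum_norm_sq_col_le g hw j)
  rw [← sq_le_sq₀ (norm_nonneg _) (by positivity), div_pow, one_pow]
  exact h

lemma strace_im_nonpos (g : Edge n → ℝ) (hw : 0 < w.im) : (strace g w).im ≤ 0 := by
  rw [strace, div_natCast_im, im_sum]
  refine div_nonpos_of_nonpos_of_nonneg (Finset.sum_nonpos fun i _ => ?_) (Nat.cast_nonneg _)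
  rw [← form_single]
  exact form_im_nonpos g hw _

/-! Differences. -/

/-- The resolvent identity in bilinear form. -/
lemma dot_res_sub (g g' : Edge n → ℝ) {w' : ℂ} (hw : 0 < w.im) (hw' : 0 < w'.im)
    (a b : Fin n → ℂ) :
    a ⬝ᵥ res g w *ᵥ b - a ⬝ᵥ res g' w' *ᵥ b =
      res g w *ᵥ a ⬝ᵥ (pencil g' w' - pencil g w) *ᵥ (res g' w' *ᵥ b) := by
  rw [Matrix.sub_mulVec, pencil_res g' hw', dotProduct_sub, ← dot_res_comm, ← dot_res_comm]
  congr 2
  exact (res_of_pencil g hw rfl).symm

/-- A bilinear form is bounded by the Frobenius norm. -/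
lemma norm_dot_le (D : Matrix (Fin n) (Fin n) ℂ) (a b : Fin n → ℂ) :
    ‖a ⬝ᵥ D *ᵥ b‖ ≤ Real.sqrt (∑ i, ∑ j, ‖D i j‖ ^ 2) * Real.sqrt (nsq a * nsq b) := by
  have h1 : ‖a ⬝ᵥ D *ᵥ b‖ ≤ ∑ p : Fin n × Fin n, ‖D p.1 p.2‖ * (‖a p.1‖ * ‖b p.2‖) := by
    rw [Fintype.sum_prod_type]
    simp only [dotProduct, Matrix.mulVec, Finset.mul_sum]
    refine (norm_sum_le _ _).trans (Finset.sum_le_sum fun i _ => (norm_sum_le _ _).trans
      (Finset.sum_le_sum fun j _ => le_of_eq ?_))
    rw [norm_mul, norm_mul]; ring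
  refine h1.trans ((Real.sum_mul_le_sqrt_mul_sqrt _ _ _).trans_eq ?_)
  rw [Fintype.sum_prod_type, Fintype.sum_prod_type]
  simp only [nsq, mul_pow, Finset.sum_mul_sum]

lemma norm_form_sub_le (g g' : Edge n → ℝ) {w' : ℂ} (hw : 0 < w.im) (hw' : w'.im = w.im)
    (u : Fin n → ℝ) :
    ‖form g w u - form g' w' u‖ ≤
      Real.sqrt (∑ i, ∑ j, ‖pencil g' w' i j - pencil g w i j‖ ^ 2) * ((∑ i, u i ^ 2) / w.im ^ 2) := by
  rw [form, form, dot_res_sub g g' hw (hw' ▸ hw)]
  refine (norm_dot_le _ _ _).trans (mul_le_mul_of_nonneg_left ?_ (Real.sqrt_nonneg _))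
  have h1 := nsq_res_le g hw (cvec u)
  have h2 := nsq_res_le g' (w := w') (hw' ▸ hw) (cvec u)
  rw [hw'] at h2
  rw [← nsq_cvec]
  have h0 : 0 ≤ nsq (cvec u) := nsq_nonneg _
  refine Real.sqrt_le_iff.2 ⟨by positivity, ?_⟩
  rw [sq]
  refine mul_le_mul ?_ ?_ (nsq_nonneg _) (by positivity) <;>
    rw [le_div_iff₀ (by positivity), mul_comm] <;> assumption

lemma sum_sq_single (j : Fin n) : ∑ i, (Pi.single j (1:ℝ) : Fin n → ℝ) i ^ 2 = 1 := by
  rw [Finset.sum_eq_single j (fun i _ hi => by simp [hi]) (by simp)]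
  simp

lemma norm_strace_sub_le (g g' : Edge n → ℝ) {w' : ℂ} (hw : 0 < w.im) (hw' : w'.im = w.im) :
    ‖strace g w - strace g' w'‖ ≤
      Real.sqrt (∑ i, ∑ j, ‖pencil g' w' i j - pencil g w i j‖ ^ 2) / w.im ^ 2 := by
  rw [strace, strace, ← sub_div, ← Finset.sum_sub_distrib, norm_div, norm_natCast]
  refine div_le_of_le_mul₀ (Nat.cast_nonneg _) (by positivity) ?_
  refine (norm_sum_le _ _).trans ((Finset.sum_le_sum fun i _ => ?_).trans_eq
    (by rw [Finset.sum_const, Finset.card_univ, Fintype.card_fin, nsmul_eq_mul, mul_comm]))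
  rw [← form_single, ← form_single]
  refine (norm_form_sub_le g g' hw hw' _).trans_eq ?_
  rw [sum_sq_single]; ring

lemma frob_disorder (g g' : Edge n → ℝ) (w : ℂ) :
    ∑ i, ∑ j, ‖pencil g' w i j - pencil g w i j‖ ^ 2 = 2 / n * ∑ e, (g e - g' e) ^ 2 := by
  have e : ∀ i j, ‖pencil g' w i j - pencil g w i j‖ ^ 2 = (sym g i j - sym g' i j) ^ 2 / n := by
    intro i j
    simp only [pencil, sub_sub_sub_cancel_left, ← ofReal_sub, norm_real, Real.norm_eq_abs, sq_abs,
      ← sub_div, div_pow, Real.sq_sqrt (Nat.cast_nonneg _)]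
  simp only [e]
  rw [sum_sym_eq fun i j => by rw [sym_comm g i j, sym_comm g' i j]]
  simp only [sym_self, sub_self]
  rw [← Finset.sum_div]
  have h1 : ∀ x : Edge n, sym g x.1.1 x.1.2 = g x := fun x => sym_of_lt g x.2
  have h2 : ∀ x : Edge n, sym g' x.1.1 x.1.2 = g' x := fun x => sym_of_lt g' x.2
  simp [h1, h2]
  ring

/-- The Lipschitz constant of `sone` and `strace`. -/
noncomputable def lipK (n : ℕ) (η : ℝ) : ℝ := Real.sqrt (2 / n) / η ^ 2

lemma lipK_nonneg (n : ℕ) (η : ℝ) : 0 ≤ lipK n η := by unfold lipK; positivity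

lemma sqrt_frob (g g' : Edge n → ℝ) (w : ℂ) :
    Real.sqrt (∑ i, ∑ j, ‖pencil g' w i j - pencil g w i j‖ ^ 2) / w.im ^ 2 =
      lipK n w.im * Real.sqrt (∑ e, (g e - g' e) ^ 2) := by
  rw [frob_disorder, Real.sqrt_mul (by positivity), lipK]; ring

lemma norm_strace_lip (g g' : Edge n → ℝ) (hw : 0 < w.im) :
    ‖strace g w - strace g' w‖ ≤ lipK n w.im * Real.sqrt (∑ e, (g e - g' e) ^ 2) :=
  (norm_strace_sub_le g g' hw rfl).trans_eq (sqrt_frob g g' w)

lemma norm_sone_lip (g g' : Edge n → ℝ) (hw : 0 < w.im) :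
    ‖sone g w - sone g' w‖ ≤ lipK n w.im * Real.sqrt (∑ e, (g e - g' e) ^ 2) := by
  rcases Nat.eq_zero_or_pos n with rfl | hn
  · simp [sone, form, dotProduct, lipK]
  rw [sone, sone, ← sub_div, norm_div, norm_natCast, div_le_iff₀ (Nat.cast_pos.2 hn)]
  refine (norm_form_sub_le g g' hw rfl _).trans_eq ?_
  rw [← sqrt_frob]
  simp [mul_div_assoc', div_mul_eq_mul_div]

/-- Shifting the spectral parameter. -/
lemma norm_strace_shift (g : Edge n → ℝ) (hw : 0 < w.im) (c : ℝ) :
    ‖strace g (w - c) - strace g w‖ ≤ Real.sqrt n * |c| / w.im ^ 2 := by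
  have e : ∀ i j, ‖pencil g w i j - pencil g (w - c) i j‖ ^ 2 = if i = j then c ^ 2 else 0 := by
    intro i j
    by_cases h : i = j <;> simp [pencil, h]
  refine (norm_strace_sub_le g g (by simpa using hw) (by simp)).trans_eq ?_
  simp only [e, sub_im, ofReal_im, sub_zero]
  congr 1
  simp [Real.sqrt_mul (Nat.cast_nonneg n), Real.sqrt_sq_eq_abs]

lemma continuous_res (hw : 0 < w.im) (i j : Fin n) :
    Continuous fun g : Edge n → ℝ => res g w i j := by
  rw [continuous_iff_continuousAt]
  intro g'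
  rw [ContinuousAt, tendsto_iff_norm_sub_tendsto_zero]
  refine squeeze_zero (fun g => norm_nonneg _) (g := fun g => Real.sqrt (2 / n *
    ∑ e, (g e - g' e) ^ 2) * (1 / w.im ^ 2)) (fun g => ?_) ?_
  · have e : ∀ G : Matrix (Fin n) (Fin n) ℂ,
        (Pi.single i (1:ℂ)) ⬝ᵥ G *ᵥ Pi.single j 1 = G i j := fun G => by simp
    rw [← e (res g w), ← e (res g' w), dot_res_sub g g' hw hw, ← frob_disorder g g' w]
    refine (norm_dot_le _ _ _).trans (mul_le_mul_of_nonneg_left ?_ (Real.sqrt_nonneg _))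
    refine Real.sqrt_le_iff.2 ⟨by positivity, ?_⟩
    have h1 := nsq_res_le g hw (Pi.single i 1)
    have h2 := nsq_res_le g' hw (Pi.single j 1)
    have hs : ∀ k : Fin n, nsq (Pi.single k (1:ℂ)) = 1 := fun k => by
      rw [← cvec_single, nsq_cvec, sum_sq_single]
    rw [hs] at h1 h2
    rw [sq]
    refine mul_le_mul ?_ ?_ (nsq_nonneg _) (by positivity) <;>
      rw [le_div_iff₀ (by positivity), mul_comm] <;> assumption
  · have hc : Continuous fun g : Edge n → ℝ =>
        Real.sqrt (2 / n * ∑ e, (g e - g' e) ^ 2) * (1 / w.im ^ 2) := by fun_prop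
    simpa using hc.tendsto g'

lemma continuous_form (hw : 0 < w.im) (u : Fin n → ℝ) :
    Continuous fun g : Edge n → ℝ => form g w u := by
  simp only [form, dotProduct, Matrix.mulVec]
  exact continuous_finsetSum _ fun i _ => continuous_const.mul
    (continuous_finsetSum _ fun j _ => (continuous_res hw i j).mul continuous_const)

lemma continuous_strace (hw : 0 < w.im) : Continuous fun g : Edge n → ℝ => strace g w :=
  (continuous_finsetSum _ fun i _ => continuous_res hw i i).div_const _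

/-! Gauge covariance and planting. -/

/-- The gauge transformation of the disorder by a configuration. -/
def gauge (x : Conf n) (g : Edge n → ℝ) : Edge n → ℝ := fun e => pairSpin x e * g e

lemma sym_gauge (x : Conf n) (g : Edge n → ℝ) (i j : Fin n) :
    sym (gauge x g) i j = spin x i * spin x j * sym g i j := by
  rcases lt_trichotomy i j with h | h | h
  · simp [sym_of_lt _ h, gauge, pairSpin]
  · subst h; simp [sym_self]
  · rw [sym_comm (gauge x g), sym_comm g, sym_of_lt _ h, sym_of_lt _ h, gauge, pairSpin]; ring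

lemma res_gauge (x : Conf n) (g : Edge n → ℝ) (hw : 0 < w.im) (u : Fin n → ℂ) :
    res (gauge x g) w *ᵥ (fun i => spin x i * u i) =
      fun i => spin x i * (res g w *ᵥ u) i := by
  refine res_of_pencil _ hw (funext fun i => ?_)
  conv_rhs => rw [← pencil_res g hw u]
  simp only [pencil_mulVec, sym_gauge, mul_sub, Finset.mul_sum]
  congr 1
  · ring
  · refine Finset.sum_congr rfl fun j _ => ?_
    have hs : (spin x j : ℂ) * spin x j = 1 := by unfold spin; split_ifs <;> simp
    push_cast
    linear_combination ((spin x i : ℂ) * (sym g i j : ℂ) / (Real.sqrt n : ℂ) *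
      (res g w *ᵥ u) j) * hs

lemma form_gauge (x : Conf n) (g : Edge n → ℝ) (hw : 0 < w.im) :
    form (gauge x g) w (spin x) = form g w (fun _ => 1) := by
  have h := res_gauge x g hw (cvec fun _ => 1)
  have e : cvec (spin x) = fun i => (spin x i : ℂ) * cvec (fun _ => 1) i := by
    funext i; simp [cvec]
  simp only [form]
  rw [e, h, dotProduct, dotProduct]
  refine Finset.sum_congr rfl fun i _ => ?_
  have hs : (spin x i : ℂ) * spin x i = 1 := by unfold spin; split_ifs <;> simp
  linear_combination (cvec (fun _ => 1) i * (res g w *ᵥ cvec fun _ => 1) i) * hs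

/-- Sherman-Morrison for the planted all-ones configuration. -/
lemma form_planted (g : Edge n → ℝ) (hw : 0 < w.im) (hn : 0 < n) (β : ℝ) :
    -(form (fun e => β / Real.sqrt n + g e) (w - (β / n : ℝ)) (fun _ => 1)).im / n =
      -(sone g w).im / Complex.normSq (1 - β * sone g w) := by
  set g' : Edge n → ℝ := fun e => β / Real.sqrt n + g e
  set c : ℂ := ((β / n : ℝ) : ℂ) with hc
  have hw' : 0 < (w - c).im := by simpa [hc] using hw
  set one : Fin n → ℂ := cvec fun _ => 1 with hone
  set v := res g' (w - c) *ᵥ one with hv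
  set T := form g' (w - c) (fun _ => 1) with hT
  have hsym : ∀ i j, ((sym g' i j / Real.sqrt n : ℝ) : ℂ) =
      ((sym g i j / Real.sqrt n : ℝ) : ℂ) + (if i = j then 0 else c) := by
    intro i j
    have hss : β / Real.sqrt n / Real.sqrt n = β / n := by
      rw [div_div, Real.mul_self_sqrt (Nat.cast_nonneg _)]
    rcases lt_trichotomy i j with h | h | h
    · simp only [sym_of_lt _ h, g', if_neg h.ne, hc, ← ofReal_add, add_div, hss, add_comm]
    · subst h; simp [sym_self]
    · simp only [sym_comm _ i j, sym_of_lt _ h, g', if_neg h.ne', hc, ← ofReal_add, add_div, hss,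
        add_comm]
  have key : pencil g w *ᵥ v = fun i => one i + c * T := by
    funext i
    have h1 := congrFun (pencil_res g' hw' one) i
    rw [← hv, pencil_mulVec] at h1
    have h2 : ∑ j, (if i = j then 0 else c) * v j = c * T - c * v i := by
      have : ∀ j, (if i = j then 0 else c) * v j = c * v j - (if i = j then c * v j else 0) :=
        fun j => by split_ifs <;> ring
      simp only [this, Finset.sum_sub_distrib, Finset.sum_ite_eq, Finset.mem_univ, if_true, hT,
        form, ← hone, ← hv, dotProduct, Finset.mul_sum]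
      simp [hone, cvec]
    simp only [hsym, add_mul, Finset.sum_add_distrib, h2] at h1
    rw [pencil_mulVec]
    linear_combination h1
  have h3 : res g w *ᵥ (fun i => one i + c * T) = v := res_of_pencil g hw key
  have h4 : (fun i => one i + c * T) = (1 + c * T) • one := by
    funext i; simp [hone, cvec]
  rw [h4, Matrix.mulVec_smul] at h3
  have h5 : T = (1 + c * T) * form g w (fun _ => 1) := by
    conv_lhs => rw [hT, form, ← hone, ← hv, ← h3, dotProduct_smul, smul_eq_mul]
    rfl
  have hn' : (n:ℂ) ≠ 0 := Nat.cast_ne_zero.2 hn.ne'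
  set S := sone g w with hS
  have h6 : T / n * (1 - β * S) = S := by
    have : c = (β:ℂ) / n := by simp [hc]
    rw [this] at h5
    simp only [hS, sone]
    field_simp at h5 ⊢
    linear_combination h5
  have hne : 1 - (β:ℂ) * S ≠ 0 := by
    intro h
    rw [h, mul_zero] at h6
    rw [← h6, mul_zero, sub_zero] at h
    exact one_ne_zero h
  have h7 : T / n = S / (1 - β * S) := by rw [eq_div_iff hne, h6]
  have h8 : (T / n).im = S.im / Complex.normSq (1 - β * S) := by
    rw [h7, Complex.div_im]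
    simp only [sub_re, sub_im, mul_re, mul_im, one_re, one_im, ofReal_re, ofReal_im]
    ring
  rw [neg_div, neg_div, ← h8, div_natCast_im]

/-! The gap tested on linear functions. -/

lemma isCoupling_skJ (β : ℝ) (g : Edge n → ℝ) : IsCoupling (skJ β g) :=
  ⟨fun i j => by simp [skJ, sym_comm g i j], fun i => by simp [skJ, sym_self]⟩

/-- A Poincaré constant controls every linear statistic. -/
lemma gap_linear {β lam : ℝ} {g : Edge n → ℝ}
    (h : ∀ f : Conf n → ℝ, lam * (avg β g (fun x => f x ^ 2) - avg β g f ^ 2) ≤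
      -avg β g (fun x => f x * gen β g f x)) (v : Fin n → ℝ) :
    lam * avg β g (fun x => (∑ i, v i * spin x i) ^ 2) ≤ ∑ i, v i ^ 2 := by
  set f : Conf n → ℝ := fun x => ∑ i, v i * spin x i
  have h0 : avg β g f = 0 := by
    have hinv : Function.Involutive (fun x : Conf n => fun j => !x j) := fun x => by funext j; simp
    have : avg β g f = -avg β g f := by
      conv_lhs => rw [avg, ← Equiv.sum_comp hinv.toPerm (fun x => gibbs β g x * f x)]
      simp [avg, f, gibbs_not, spin_not]
    linarith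
  have h1 := (h f).trans_eq (dir_skJ β g f).symm
  rw [h0] at h1
  simp only [sq (0:ℝ), mul_zero, sub_zero] at h1
  exact h1.trans (dir_linear_le (isCoupling_skJ β g) 0 v)

/-- A Poincaré constant controls the Gibbs average of the resolvent form. -/
lemma gap_form {β lam : ℝ} {g : Edge n → ℝ}
    (h : ∀ f : Conf n → ℝ, lam * (avg β g (fun x => f x ^ 2) - avg β g f ^ 2) ≤
      -avg β g (fun x => f x * gen β g f x)) (hw : 0 < w.im) :
    lam * avg β g (fun x => -(form g w (spin x)).im) ≤ -(∑ i, res g w i i).im := by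
  set G := res g w
  have e1 : ∀ x, -(form g w (spin x)).im = w.im * ∑ i,
      ((∑ j, (G i j).re * spin x j) ^ 2 + (∑ j, (G i j).im * spin x j) ^ 2) := by
    intro x
    rw [neg_im_form g hw]
    congr 1
    refine Finset.sum_congr rfl fun i _ => ?_
    rw [← Complex.normSq_eq_norm_sq, normSq_apply]
    simp [Matrix.mulVec, dotProduct, cvec, re_sum, im_sum, sq, G]
  have e2 : ∑ i, ∑ j, ((G i j).re ^ 2 + (G i j).im ^ 2) * w.im = -(∑ i, G i i).im := by
    rw [im_sum, ← Finset.sum_neg_distrib, Finset.sum_comm]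
    refine Finset.sum_congr rfl fun j _ => ?_
    rw [show G j j = form g w (Pi.single j 1) from (form_single g w j).symm, neg_im_form g hw,
      cvec_single, Matrix.mulVec_single_one, nsq, mul_comm w.im, Finset.sum_mul]
    refine Finset.sum_congr rfl fun i _ => ?_
    rw [← Complex.normSq_eq_norm_sq, normSq_apply]
    simp [sq, G]
  rw [← e2]
  have e3 : avg β g (fun x => -(form g w (spin x)).im) = w.im * ∑ i,
      (avg β g (fun x => (∑ j, (G i j).re * spin x j) ^ 2) +
        avg β g (fun x => (∑ j, (G i j).im * spin x j) ^ 2)) := by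
    simp only [avg, e1, Finset.mul_sum, mul_add, ← Finset.sum_add_distrib]
    rw [Finset.sum_comm]
    exact Finset.sum_congr rfl fun i _ => Finset.sum_congr rfl fun x _ => by ring
  rw [e3, mul_left_comm, Finset.mul_sum, Finset.mul_sum]
  refine Finset.sum_le_sum fun i _ => ?_
  rw [← Finset.sum_mul, Finset.sum_add_distrib, mul_comm _ w.im, mul_add lam]
  exact mul_le_mul_of_nonneg_left
    (add_le_add (gap_linear h fun j => (G i j).re) (gap_linear h fun j => (G i j).im)) hw.le

end Vale.Agent.P150.Crit
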