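import Vale.Agent.P150.Crit.Res
import Vale.Agent.P150.Crit.Gauss
import Vale.Agent.P146.Tilt

/-!
The mean normalised trace of the resolvent satisfies the semicircle equation up to `o(1)`
(Gaussian integration by parts), and equals the mean of the form at the all-ones vector.
-/

open MeasureTheory ProbabilityTheory Complex Filter Matrix
open scoped Topology

namespace Vale.Agent.P150.Crit

open Gap

variable {n : ℕ} {w : ℂ}

lemma sum_sym_mulC (g : Edge n → ℝ) (c : Fin n → Fin n → ℂ) :
    ∑ i, ∑ j, (sym g i j : ℂ) * c i j = ∑ e : Edge n, (g e : ℂ) * (c e.1.1 e.1.2 + c e.1.2 e.1.1) := by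
  refine Complex.ext ?_ ?_
  · simp only [re_sum, re_ofReal_mul, add_re]
    exact sum_sym_mul g fun i j => (c i j).re
  · simp only [im_sum, im_ofReal_mul, add_im]
    exact sum_sym_mul g fun i j => (c i j).im

lemma sum_sym_eqC {f : Fin n → Fin n → ℂ} (hf : ∀ i j, f i j = f j i) :
    ∑ i, ∑ j, f i j = 2 * ∑ e : Edge n, f e.1.1 e.1.2 + ∑ i, f i i := by
  refine Complex.ext ?_ ?_
  · simp only [re_sum, add_re, Complex.mul_re, Complex.re_ofNat, Complex.im_ofNat, zero_mul, sub_zero]
    exact sum_sym_eq fun i j => by rw [hf]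
  · simp only [im_sum, re_sum, add_im, Complex.mul_im, Complex.re_ofNat, Complex.im_ofNat, zero_mul,
      add_zero]
    exact sum_sym_eq fun i j => by rw [hf]

/-- The derivative of a resolvent entry in the coupling `e`. -/
noncomputable def dres (e : Edge n) (w : ℂ) (i j : Fin n) (g : Edge n → ℝ) : ℂ :=
  (res g w i e.1.1 * res g w e.1.2 j + res g w i e.1.2 * res g w e.1.1 j) / (Real.sqrt n : ℂ)

lemma hasDerivAt_res (hw : 0 < w.im) (g : Edge n → ℝ) (e : Edge n) (i j : Fin n) (t : ℝ) :
    HasDerivAt (fun s => res (Function.update g e s) w i j)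
      (dres e w i j (Function.update g e t)) t := by
  set G : ℝ → Matrix (Fin n) (Fin n) ℂ := fun s => res (Function.update g e s) w
  set L : ℝ → ℂ := fun s =>
    (G s i e.1.1 * G t e.1.2 j + G s i e.1.2 * G t e.1.1 j) / (Real.sqrt n : ℂ)
  have key : ∀ s, G s i j - G t i j = ((s - t : ℝ) : ℂ) * L s := by
    intro s
    have he : ∀ M : Matrix (Fin n) (Fin n) ℂ,
        (Pi.single i (1:ℂ)) ⬝ᵥ M *ᵥ Pi.single j 1 = M i j := fun M => by simp
    rw [← he (G s), ← he (G t), dot_res_sub _ _ hw hw]
    have hcol : ∀ (M : Matrix (Fin n) (Fin n) ℂ) (k : Fin n),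
        M *ᵥ Pi.single k 1 = fun l => M l k := fun M k => by funext l; simp
    rw [hcol, hcol]
    simp only [dotProduct, Matrix.mulVec, Matrix.sub_apply, pencil, Finset.mul_sum]
    set u : Fin n → ℂ := fun k => G s k i
    set v : Fin n → ℂ := fun l => G t l j
    set g₁ := Function.update g e s
    set g₂ := Function.update g e t
    have e1 : ∀ k l, u k * (((if k = l then w else 0) - ((sym g₂ k l / Real.sqrt n : ℝ) : ℂ) -
        ((if k = l then w else 0) - ((sym g₁ k l / Real.sqrt n : ℝ) : ℂ))) * v l) =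
        (sym g₁ k l : ℂ) * (u k * v l / (Real.sqrt n : ℂ)) -
          (sym g₂ k l : ℂ) * (u k * v l / (Real.sqrt n : ℂ)) := fun k l => by
      push_cast; ring
    change (∑ k, ∑ l, u k * (((if k = l then w else 0) - ((sym g₂ k l / Real.sqrt n : ℝ) : ℂ) -
        ((if k = l then w else 0) - ((sym g₁ k l / Real.sqrt n : ℝ) : ℂ))) * v l)) = _
    simp only [e1, Finset.sum_sub_distrib, sum_sym_mulC]
    rw [← Finset.sum_sub_distrib, Finset.sum_eq_single e]
    · simp only [g₁, g₂, Function.update_self, L, u, v, G, res_symm _ w i]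
      push_cast; ring
    · intro d _ hd; simp [g₁, g₂, hd]
    · simp
  have hL : ContinuousAt L t := by
    have h := fun k => ((continuous_res (n := n) hw i k).comp
      (continuous_const.update e continuous_id (f := fun _ : ℝ => g))).continuousAt (x := t)
    exact ((h e.1.1).mul continuousAt_const |>.add ((h e.1.2).mul continuousAt_const)).div_const _
  rw [hasDerivAt_iff_tendsto_slope]
  refine (hL.continuousWithinAt.congr' ?_ ).trans_eq rfl
  filter_upwards [self_mem_nhdsWithin] with s hs
  rw [slope_def_module, key, Complex.real_smul, ← mul_assoc, ← Complex.ofReal_mul,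
    inv_mul_cancel₀ (sub_ne_zero.2 hs), Complex.ofReal_one, one_mul]

section IBP

variable {ι : Type*} [Fintype ι] [DecidableEq ι]

lemma ibpR {F F' : (ι → ℝ) → ℝ} (i : ι)
    (hd : ∀ g t, HasDerivAt (fun s => F (Function.update g i s)) (F' (Function.update g i t)) t)
    (hc : Continuous F) (hc' : Continuous F') {B : ℝ} (hB : ∀ g, |F g| ≤ B) (hB' : ∀ g, |F' g| ≤ B) :
    ∫ g, g i * F g ∂gauss ι = ∫ g, F' g ∂gauss ι := by
  obtain rfl : ‹DecidableEq ι› = fun a b => Classical.propDecidable (a = b) := Subsingleton.elim _ _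
  let : DecidableEq ι := fun a b => Classical.propDecidable (a = b)
  have h1 : Integrable (fun g => g i * F g) (gauss ι) :=
    ((integrable_eval i).bdd_mul hc.aestronglyMeasurable
      (ae_of_all _ fun g => by rw [Real.norm_eq_abs]; exact hB g)).congr
      (ae_of_all _ fun g => mul_comm _ _)
  rw [integral_gauss_update h1 i, integral_gauss_update (integrable_gauss_bound hc' hB') i]
  refine integral_congr_ae (ae_of_all _ fun g => ?_)
  simp only [Function.update_self]
  exact gaussian_ibp (hd g) (F' := fun t => F' (Function.update g i t))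
    (hc'.comp (by fun_prop)) (fun t => hB _) (fun t => hB' _)

omit [DecidableEq ι] in
lemma integrableC {F : (ι → ℝ) → ℂ} (hc : Continuous F) {B : ℝ} (hB : ∀ g, ‖F g‖ ≤ B) :
    Integrable F (gauss ι) :=
  Integrable.of_bound hc.aestronglyMeasurable B (ae_of_all _ hB)

/-- Gaussian integration by parts for bounded complex functions. -/
lemma ibpC {F F' : (ι → ℝ) → ℂ} (i : ι)
    (hd : ∀ g t, HasDerivAt (fun s => F (Function.update g i s)) (F' (Function.update g i t)) t)
    (hc : Continuous F) (hc' : Continuous F') {B : ℝ} (hB : ∀ g, ‖F g‖ ≤ B) (hB' : ∀ g, ‖F' g‖ ≤ B) :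
    Integrable (fun g => (g i : ℂ) * F g) (gauss ι) ∧
      ∫ g, (g i : ℂ) * F g ∂gauss ι = ∫ g, F' g ∂gauss ι := by
  have hi : Integrable (fun g => (g i : ℂ) * F g) (gauss ι) :=
    ((integrable_eval i).ofReal.bdd_mul hc.aestronglyMeasurable (ae_of_all _ hB)).congr
      (ae_of_all _ fun g => mul_comm _ _)
  have hi' := integrableC hc' hB'
  refine ⟨hi, Complex.ext ?_ ?_⟩
  · have e1 := reCLM.integral_comp_comm hi
    have e2 := reCLM.integral_comp_comm hi'
    simp only [reCLM_apply, re_ofReal_mul] at e1 e2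
    rw [← e1, ← e2]
    exact ibpR i (fun g t => reCLM.hasFDerivAt.comp_hasDerivAt t (hd g t))
      (continuous_re.comp hc) (continuous_re.comp hc')
      (fun g => (abs_re_le_norm _).trans (hB g)) (fun g => (abs_re_le_norm _).trans (hB' g))
  · have e1 := imCLM.integral_comp_comm hi
    have e2 := imCLM.integral_comp_comm hi'
    simp only [imCLM_apply, im_ofReal_mul] at e1 e2
    rw [← e1, ← e2]
    exact ibpR i (fun g t => imCLM.hasFDerivAt.comp_hasDerivAt t (hd g t))
      (continuous_im.comp hc) (continuous_im.comp hc')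
      (fun g => (abs_im_le_norm _).trans (hB g)) (fun g => (abs_im_le_norm _).trans (hB' g))

end IBP

/-- The mean normalised trace. -/
noncomputable def sbar (n : ℕ) (w : ℂ) : ℂ := ∫ g, strace g w ∂gauss (Edge n)

lemma norm_strace_le (g : Edge n → ℝ) (hw : 0 < w.im) : ‖strace g w‖ ≤ 1 / w.im := by
  rw [strace, norm_div, Complex.norm_natCast]
  refine div_le_of_le_mul₀ (Nat.cast_nonneg _) (by positivity) ((norm_sum_le _ _).trans
    ((Finset.sum_le_sum fun i _ => norm_res_le g hw i i).trans_eq ?_))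
  simp [mul_comm]

lemma norm_sone_le (g : Edge n → ℝ) (hw : 0 < w.im) : ‖sone g w‖ ≤ n / w.im := by
  rcases Nat.eq_zero_or_pos n with rfl | hn
  · simp [sone]
  rw [sone, norm_div, Complex.norm_natCast, div_le_iff₀ (Nat.cast_pos.2 hn), form]
  simp only [dotProduct, Matrix.mulVec, cvec, ofReal_one, one_mul, mul_one]
  refine (norm_sum_le _ _).trans ((Finset.sum_le_sum fun i _ => (norm_sum_le _ _).trans
    (Finset.sum_le_sum fun j _ => norm_res_le g hw i j)).trans_eq ?_)
  simp; ring

lemma integrable_strace (hw : 0 < w.im) :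
    Integrable (fun g : Edge n → ℝ => strace g w) (gauss (Edge n)) :=
  integrableC (continuous_strace hw) fun g => norm_strace_le g hw

lemma sbar_im_nonpos (hw : 0 < w.im) : (sbar n w).im ≤ 0 := by
  rw [sbar, ← imCLM_apply, ← imCLM.integral_comp_comm (integrable_strace hw)]
  exact integral_nonpos fun g => strace_im_nonpos g hw

lemma integral_res_offdiag (hw : 0 < w.im) {i j : Fin n} (hij : i ≠ j) :
    ∫ g, res g w i j ∂gauss (Edge n) = 0 := by
  set x : Conf n := fun k => decide (k ≠ i)
  have hmp := P146.gauss_sign (pairSpin x) fun e =>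
    (abs_eq zero_le_one).1 (abs_pairSpin x e)
  have e : ∀ g, res (gauge x g) w i j = -res g w i j := by
    intro g
    have h := congrFun (res_gauge x g hw (Pi.single j 1)) i
    have hu : (fun k => (spin x k : ℂ) * (Pi.single j (1:ℂ) : Fin n → ℂ) k) = Pi.single j 1 := by
      funext k
      by_cases hk : k = j
      · subst hk; simp [spin, x, hij.symm]
      · simp [hk]
    rw [hu] at h
    simpa [Matrix.mulVec_single_one, spin, x] using h
  have h : ∫ g, res (gauge x g) w i j ∂gauss (Edge n) = ∫ g, res g w i j ∂gauss (Edge n) := by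
    conv_rhs => rw [← hmp.map_eq, integral_map hmp.measurable.aemeasurable
      (by rw [hmp.map_eq]; exact (continuous_res hw i j).aestronglyMeasurable)]
    rfl
  simp only [e, integral_neg] at h
  exact neg_eq_self.1 h

lemma integral_sone (hw : 0 < w.im) :
    ∫ g, sone g w ∂gauss (Edge n) = sbar n w := by
  have hi : ∀ i j, Integrable (fun g => res g w i j) (gauss (Edge n)) := fun i j =>
    integrableC (continuous_res hw i j) fun g => norm_res_le g hw i j
  have e : ∀ g : Edge n → ℝ, form g w (fun _ => 1) = ∑ i, ∑ j, res g w i j := fun g => by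
    simp [form, dotProduct, Matrix.mulVec, cvec]
  simp only [sbar, sone, strace, integral_div, e]
  rw [integral_finsetSum _ fun i _ => integrable_finsetSum _ fun j _ => hi i j,
    integral_finsetSum _ fun i _ => hi i i]
  congr 1
  refine Finset.sum_congr rfl fun i _ => ?_
  rw [integral_finsetSum _ fun j _ => hi i j]
  exact Finset.sum_eq_single i (fun j _ hj => integral_res_offdiag hw (Ne.symm hj)) (by simp)

lemma dev_le {F : (Edge n → ℝ) → ℂ} {K : ℝ} (hK : 0 ≤ K) (hi : Integrable F (gauss (Edge n)))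
    (hF : ∀ g g', ‖F g - F g'‖ ≤ K * Real.sqrt (∑ e, (g e - g' e) ^ 2)) :
    ∫ g, ‖F g - ∫ g', F g' ∂gauss (Edge n)‖ ∂gauss (Edge n) ≤ 48 * K := by
  set M := ∫ g', F g' ∂gauss (Edge n)
  have h1 : EuLip (fun g => (F g).re) K := fun g g' => by
    rw [← sub_re]; exact (abs_re_le_norm _).trans (hF g g')
  have h2 : EuLip (fun g => (F g).im) K := fun g g' => by
    rw [← sub_im]; exact (abs_im_le_norm _).trans (hF g g')
  have e1 : ∫ g, (F g).re ∂gauss (Edge n) = M.re := reCLM.integral_comp_comm hi
  have e2 : ∫ g, (F g).im ∂gauss (Edge n) = M.im := imCLM.integral_comp_comm hi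
  have d1 := mean_dev_le hK h1
  have d2 := mean_dev_le hK h2
  rw [e1] at d1; rw [e2] at d2
  have i1 : Integrable (fun g => |(F g).re - M.re|) (gauss (Edge n)) :=
    ((integrable_of_coord_lip (h1.coord hK)).sub (integrable_const _)).abs
  have i2 : Integrable (fun g => |(F g).im - M.im|) (gauss (Edge n)) :=
    ((integrable_of_coord_lip (h2.coord hK)).sub (integrable_const _)).abs
  refine (integral_mono (hi.sub (integrable_const M)).norm (i1.add i2) fun g => ?_).trans ?_
  · simpa [sub_re, sub_im] using Complex.norm_le_abs_re_add_abs_im (F g - M)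
  · rw [integral_add' i1 i2]; linarith

/-- The approximate semicircle equation. -/
theorem stein (hw : 0 < w.im) (hn : 0 < n) :
    ‖w * sbar n w - 1 - sbar n w ^ 2‖ ≤
      3 / (w.im ^ 2 * n) + 96 / w.im * lipK n w.im := by
  have hn' : (n:ℂ) ≠ 0 := Nat.cast_ne_zero.2 hn.ne'
  set η := w.im
  set s : ℂ := sbar n w with hs
  set P := gauss (Edge n)
  set G : (Edge n → ℝ) → Matrix (Fin n) (Fin n) ℂ := fun g => res g w
  set rem : (Edge n → ℝ) → ℂ := fun g =>
    ((∑ a, ∑ b, G g a b ^ 2) - 2 * ∑ a, G g a a ^ 2) / ((n:ℂ) * n)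
  have hGc : ∀ a b, Continuous fun g => G g a b := fun a b => continuous_res hw a b
  have hrem : ∀ g, ‖rem g‖ ≤ 3 / (η ^ 2 * n) := by
    intro g
    have h1 : ‖∑ a, ∑ b, G g a b ^ 2‖ ≤ n * (1 / η ^ 2) := by
      rw [Finset.sum_comm]
      refine (norm_sum_le _ _).trans ((Finset.sum_le_sum fun b _ => (norm_sum_le _ _).trans
        ((Finset.sum_le_sum fun a _ => (norm_pow _ _).le).trans (sum_norm_sq_col_le g hw b))).trans_eq ?_)
      rw [Finset.sum_const, Finset.card_univ, Fintype.card_fin, nsmul_eq_mul]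
    have h2 : ‖∑ a, G g a a ^ 2‖ ≤ n * (1 / η ^ 2) := by
      refine (norm_sum_le _ _).trans ((Finset.sum_le_sum fun a _ => ?_).trans_eq
        (by rw [Finset.sum_const, Finset.card_univ, Fintype.card_fin, nsmul_eq_mul] : (∑ _a : Fin n, 1 / η ^ 2) = n * (1 / η ^ 2)))
      rw [norm_pow]
      exact (Finset.single_le_sum (fun k _ => sq_nonneg ‖G g k a‖) (Finset.mem_univ a)).trans
        (sum_norm_sq_col_le g hw a)
    simp only [rem]
    rw [norm_div, norm_mul, Complex.norm_natCast, div_le_iff₀ (by positivity)]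
    refine (norm_sub_le _ _).trans ((add_le_add h1 ((norm_mul_le _ _).trans
      (mul_le_mul_of_nonneg_left h2 (norm_nonneg _)))).trans_eq ?_)
    rw [RCLike.norm_ofNat]
    field_simp
    ring
  have hpt : ∀ g : Edge n → ℝ, w * strace g w - 1 =
      2 / ((n:ℂ) * (Real.sqrt n : ℂ)) * ∑ e : Edge n, (g e : ℂ) * G g e.1.1 e.1.2 := by
    intro g
    have h1 : ∀ i, w * G g i i - ∑ k, (sym g i k : ℂ) * (G g k i / (Real.sqrt n : ℂ)) = 1 := by
      intro i
      have h := congrFun (pencil_res g hw (Pi.single i 1)) i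
      rw [Pi.single_eq_same, pencil_mulVec] at h
      simp only [Matrix.mulVec_single_one, Matrix.col_apply] at h
      refine Eq.trans ?_ h
      congr 1
      exact Finset.sum_congr rfl fun k _ => by push_cast; ring
    have h2 := Finset.sum_congr (rfl : (Finset.univ : Finset (Fin n)) = _) fun i _ => h1 i
    rw [Finset.sum_sub_distrib, ← Finset.mul_sum, sum_sym_mulC] at h2
    simp only [Finset.sum_const, Finset.card_univ, Fintype.card_fin, nsmul_eq_mul, mul_one] at h2
    have h4 : ∑ e : Edge n, (g e : ℂ) * (G g e.1.2 e.1.1 / (Real.sqrt n : ℂ) +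
        G g e.1.1 e.1.2 / (Real.sqrt n : ℂ)) =
        2 / (Real.sqrt n : ℂ) * ∑ e : Edge n, (g e : ℂ) * G g e.1.1 e.1.2 := by
      rw [Finset.mul_sum]
      refine Finset.sum_congr rfl fun e _ => ?_
      simp only [G, res_symm g w e.1.2 e.1.1]
      ring
    rw [h4] at h2
    rw [div_mul_eq_div_div_swap]
    simp only [strace]
    generalize hq : 2 / (Real.sqrt n : ℂ) = q at h2 ⊢
    field_simp
    linear_combination h2
  have hf : ∀ g : Edge n → ℝ, 2 / ((n:ℂ) * (Real.sqrt n : ℂ)) *
      ∑ e : Edge n, dres e w e.1.1 e.1.2 g = strace g w ^ 2 + rem g := by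
    intro g
    set f : Fin n → Fin n → ℂ := fun a b => G g a a * G g b b + G g a b * G g a b
    have hd : ∀ e : Edge n, dres e w e.1.1 e.1.2 g = f e.1.1 e.1.2 / (Real.sqrt n : ℂ) := fun e => rfl
    have hsum := sum_sym_eqC (f := f) fun a b => by simp only [f, G, res_symm g w b a]; ring
    have hss : (Real.sqrt n : ℂ) * (Real.sqrt n : ℂ) = n := by
      rw [← Complex.ofReal_mul, Real.mul_self_sqrt (Nat.cast_nonneg _), Complex.ofReal_natCast]
    simp only [f, Finset.sum_add_distrib, ← Finset.sum_mul_sum] at hsum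
    simp only [hd, ← Finset.sum_div, strace, rem]
    rw [div_mul_div_comm, mul_assoc, hss, div_pow, ← sq (n:ℂ), ← add_div]
    congr 1
    simp only [f, G, sq] at hsum ⊢
    simp only [Finset.sum_add_distrib]
    linear_combination -hsum
  have hib : ∀ e : Edge n, Integrable (fun g => (g e : ℂ) * G g e.1.1 e.1.2) P ∧
      ∫ g, (g e : ℂ) * G g e.1.1 e.1.2 ∂P = ∫ g, dres e w e.1.1 e.1.2 g ∂P := fun e =>
    ibpC e (fun g t => hasDerivAt_res hw g e _ _ t) (hGc _ _)
      (((hGc _ _).mul (hGc _ _)).add ((hGc _ _).mul (hGc _ _)) |>.div_const _)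
      (B := max (1 / η) ((1 / η * (1 / η) + 1 / η * (1 / η)) / Real.sqrt n))
      (fun g => (norm_res_le g hw _ _).trans (le_max_left _ _))
      (fun g => by
        refine le_trans ?_ (le_max_right _ _)
        rw [dres, norm_div, norm_real, Real.norm_eq_abs, abs_of_nonneg (Real.sqrt_nonneg _)]
        refine div_le_div_of_nonneg_right ((norm_add_le _ _).trans (add_le_add ?_ ?_))
          (Real.sqrt_nonneg _) <;>
          rw [norm_mul] <;>
          exact mul_le_mul (norm_res_le g hw _ _) (norm_res_le g hw _ _) (norm_nonneg _) (by positivity))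
  have hdi : ∀ e : Edge n, Integrable (dres e w e.1.1 e.1.2) P := fun e =>
    integrableC (((hGc _ _).mul (hGc _ _)).add ((hGc _ _).mul (hGc _ _)) |>.div_const _)
      (B := (1 / η * (1 / η) + 1 / η * (1 / η)) / Real.sqrt n) fun g => by
        rw [dres, norm_div, norm_real, Real.norm_eq_abs, abs_of_nonneg (Real.sqrt_nonneg _)]
        refine div_le_div_of_nonneg_right ((norm_add_le _ _).trans (add_le_add ?_ ?_))
          (Real.sqrt_nonneg _) <;>
          rw [norm_mul] <;>
          exact mul_le_mul (norm_res_le g hw _ _) (norm_res_le g hw _ _) (norm_nonneg _) (by positivity)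
  have hsi := integrable_strace (n := n) hw
  have hs2 : Integrable (fun g : Edge n → ℝ => strace g w ^ 2) P :=
    integrableC ((continuous_strace hw).pow 2) (B := (1 / η) ^ 2) fun g => by
      rw [norm_pow]; exact pow_le_pow_left₀ (norm_nonneg _) (norm_strace_le g hw) 2
  have hri : Integrable rem P := by
    refine integrableC ?_ hrem
    exact ((continuous_finsetSum _ fun a _ => continuous_finsetSum _ fun b _ => (hGc a b).pow 2).sub
      (continuous_const.mul (continuous_finsetSum _ fun a _ => (hGc a a).pow 2))).div_const _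
  have hmean : w * s - 1 = ∫ g, (strace g w ^ 2 + rem g) ∂P := by
    have e1 : w * s - 1 = ∫ g, (w * strace g w - 1) ∂P := by
      rw [integral_sub (hsi.const_mul w) (integrable_const _), integral_const_mul]
      simp [hs, sbar]
    rw [e1]
    simp only [hpt, ← hf, integral_const_mul]
    rw [integral_finsetSum _ fun e _ => (hib e).1, integral_finsetSum _ fun e _ => hdi e]
    exact congrArg _ (Finset.sum_congr rfl fun e _ => (hib e).2)
  have hvar : ‖∫ g, strace g w ^ 2 ∂P - s ^ 2‖ ≤ 96 / η * lipK n η := by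
    have hdev := dev_le (lipK_nonneg n η) hsi fun g g' => norm_strace_lip g g' hw
    rw [show (∫ g', strace g' w ∂gauss (Edge n)) = s from rfl] at hdev
    have e1 : ∫ g, strace g w ^ 2 ∂P - s ^ 2 = ∫ g, (strace g w ^ 2 - s ^ 2) ∂P := by
      rw [integral_sub hs2 (integrable_const _)]; simp
    have hs1 : ‖s‖ ≤ 1 / η := by
      refine (norm_integral_le_of_norm_le_const (ae_of_all _ fun g => norm_strace_le g hw)).trans_eq ?_
      simp [η]
    have hsn := (hsi.sub (integrable_const s)).norm
    rw [e1]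
    refine (norm_integral_le_of_norm_le (hsn.const_mul (2 / η)) (ae_of_all _ fun g => ?_)).trans ?_
    · rw [show strace g w ^ 2 - s ^ 2 = (strace g w + s) * (strace g w - s) by ring, norm_mul]
      refine mul_le_mul_of_nonneg_right ((norm_add_le _ _).trans ?_) (norm_nonneg _)
      have := norm_strace_le g hw
      rw [show 2 / η = 1 / η + 1 / η by ring]
      exact add_le_add this hs1
    · rw [integral_const_mul]
      refine (mul_le_mul_of_nonneg_left hdev (by positivity)).trans_eq ?_
      ring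
  have hr : ‖∫ g, rem g ∂P‖ ≤ 3 / (η ^ 2 * n) := by
    refine (norm_integral_le_of_norm_le_const (ae_of_all _ hrem)).trans_eq ?_
    simp
  rw [hmean, integral_add hs2 hri, add_comm (∫ g, strace g w ^ 2 ∂P), add_sub_assoc]
  exact (norm_add_le _ _).trans (add_le_add hr hvar)

/-- The root of the perturbed semicircle equation near the edge. -/
lemma root_bounds {r e : ℂ} {a : ℝ} (ha : 0 < a) (ha1 : a ≤ 1 / 8)
    (h : r ^ 2 + (I * (a ^ 2 : ℝ)) * r = I * (a ^ 2 : ℝ) - e) (he : ‖e‖ ≤ a ^ 2 / 2)
    (him : 0 ≤ r.im) : ‖r‖ ≤ 2 * a ∧ a / 16 ≤ r.im := by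
  have hI : ‖I * ((a ^ 2 : ℝ) : ℂ)‖ = a ^ 2 := by
    rw [norm_mul, norm_I, one_mul, norm_real, Real.norm_eq_abs, abs_of_nonneg (sq_nonneg a)]
  have h1 : ‖r‖ ^ 2 ≤ a ^ 2 * ‖r‖ + (a ^ 2 + a ^ 2 / 2) := by
    have e1 : r ^ 2 = (I * ((a ^ 2 : ℝ) : ℂ) - e) - (I * ((a ^ 2 : ℝ) : ℂ)) * r := by
      linear_combination h
    rw [← norm_pow, e1]
    refine (norm_sub_le _ _).trans ?_
    rw [norm_mul (I * ((a ^ 2 : ℝ) : ℂ)) r, hI, add_comm]
    exact add_le_add le_rfl ((norm_sub_le _ _).trans (add_le_add hI.le he))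
  have hr : ‖r‖ ≤ 2 * a := by
    by_contra hc
    push Not at hc
    nlinarith [mul_le_mul hc.le (show 2 * a - a ^ 2 ≤ ‖r‖ - a ^ 2 by linarith) (by nlinarith) (norm_nonneg r)]
  refine ⟨hr, ?_⟩
  have h2 := congrArg Complex.im h
  simp only [sq r, add_im, sub_im, mul_im, I_re, I_im, ofReal_re, ofReal_im, zero_mul, one_mul,
    mul_zero, mul_re, zero_sub, neg_zero, zero_add] at h2
  have h3 : a ^ 2 / 2 ≤ r.re * (2 * r.im + a ^ 2) := by
    have := (le_abs_self _).trans ((abs_im_le_norm e).trans he)
    nlinarith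
  have h4 : r.re ≤ 2 * a := (le_abs_self _).trans ((abs_re_le_norm r).trans hr)
  have h5 : r.re * (2 * r.im + a ^ 2) ≤ 2 * a * (2 * r.im + a ^ 2) :=
    mul_le_mul_of_nonneg_right h4 (by positivity)
  have h6 : a * (a / 4) ≤ a * (2 * r.im + a ^ 2) := by linarith
  have h7 := le_of_mul_le_mul_left h6 ha
  nlinarith

end Vale.Agent.P150.Crit
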